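import Vale.Agent.P067.Full.Acyc.Bld
import Vale.Agent.P067.Full.Finite

/-!
A cycle of opposite cells bounds in the building; cones in complexes of opposite subspaces push
the filling down to opposite cells.
-/

namespace Vale.Agent.P067.Full.Acyc

open Finset Vale.Agent.HDX

variable {p r : ℕ} [Fact p.Prime] [NeZero r]

/-- The link data of a cell: good vertices are the subspaces completing an opposite chain. -/
def HasLink (b : Finset (Vx p r)) : Prop :=
  ∃ (Fl : ℕ → Submodule (ZMod p) (Fin r → ZMod p))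
    (β : Finset (Submodule (ZMod p) (Fin r → ZMod p)))
    (φ : Vx p r → Submodule (ZMod p) (Fin r → ZMod p))
    (ψ : Submodule (ZMod p) (Fin r → ZMod p) → Vx p r),
    IsCompleteFlag Fl ∧ IsOppChain Fl β ∧ β.card + 1 = b.card ∧
    (∀ x, Good (hHi p) b x → φ x ∉ β ∧ ψ (φ x) = x) ∧
    (∀ τ : Finset (Vx p r), (∀ x ∈ τ, Good (hHi p) b x) → IsCell (b ∪ τ) →
      IsOppChain Fl (β ∪ τ.image φ)) ∧
    (∀ σ : Finset (Submodule (ZMod p) (Fin r → ZMod p)), IsOppChain Fl (β ∪ σ) → Disjoint σ β →
      IsCell (b ∪ σ.image ψ) ∧ ∀ W ∈ σ, Good (hHi p) b (ψ W) ∧ φ (ψ W) = W)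

/-- Cones in complexes of subspaces opposite to a flag. -/
def HasCones (p r : ℕ) [Fact p.Prime] : Prop :=
  ∀ Fl : ℕ → Submodule (ZMod p) (Fin r → ZMod p), IsCompleteFlag Fl →
    ∀ β, IsOppChain Fl β →
    ∃ C : Finset (Submodule (ZMod p) (Fin r → ZMod p)) → Ch (Submodule (ZMod p) (Fin r → ZMod p)),
      ∀ σ, IsOppChain Fl (β ∪ σ) → Disjoint σ β → σ.card + β.card + 1 < r →
        Supp (fun τ => τ.card = σ.card + 1 ∧ Disjoint τ β ∧ IsOppChain Fl (β ∪ τ)) (C σ) ∧
          bd (C σ) = Finsupp.single σ 1 + ∑ x ∈ σ, C (σ.erase x)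

open Classical in
/-- Over a steep cell the flat part of every chain is contracted. -/
lemma exists_hom (H : IsHeight p r (hHi p)) (hlink : ∀ b, IsCell b → b.Nonempty → HasLink (p := p) (r := r) b)
    (hcones : HasCones p r) {b : Finset (Vx p r)} (hb : IsCell b) (hne : b.Nonempty)
    (hst : steep (hHi p) b = b) :
    ∃ K : Finset (Vx p r) → Ch (Vx p r), ∀ σ, IsCell σ → steep (hHi p) σ = b → σ.card < r →
      Supp (fun τ => IsCell τ ∧ τ.card = σ.card + 1 ∧ level (hHi p) τ = level (hHi p) b) (K σ) ∧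
        (bd (K σ)).filter (fun τ => level (hHi p) τ = level (hHi p) b) =
          Finsupp.single σ 1 + ∑ x ∈ σ \ b, K (σ.erase x) := by
  obtain ⟨Fl, β, φ, ψ, hFl, hβ, hcard, hgood, hφ, hψ⟩ := hlink b hb hne
  obtain ⟨C, hC⟩ := hcones Fl hFl β hβ
  set g : Finset (Submodule (ZMod p) (Fin r → ZMod p)) → Finset (Vx p r) :=
    fun T => b ∪ T.image ψ with hg
  refine ⟨fun σ => Finsupp.mapDomain g (C ((σ \ b).image φ)), fun σ hσ hbase hlt => ?_⟩
  have hbσ : b ⊆ σ := hbase ▸ steep_subset _ _
  have hgoodσ : ∀ x ∈ σ \ b, Good (hHi p) b x := fun x hx => hbase ▸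
    good_of_not_steep H hσ (Finset.mem_sdiff.1 hx).1 (hbase.symm ▸ (Finset.mem_sdiff.1 hx).2)
  have hφinj : Set.InjOn φ ↑(σ \ b) := fun x hx y hy h => by
    rw [← (hgood x (hgoodσ x hx)).2, h, (hgood y (hgoodσ y hy)).2]
  have hd : Disjoint ((σ \ b).image φ) β := by
    rw [Finset.disjoint_left]
    intro W hW
    obtain ⟨x, hx, rfl⟩ := Finset.mem_image.1 hW
    exact (hgood x (hgoodσ x hx)).1
  have hch : IsOppChain Fl (β ∪ (σ \ b).image φ) :=
    hφ _ hgoodσ (by rw [Finset.union_sdiff_of_subset hbσ]; exact hσ)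
  have hc1 : ((σ \ b).image φ).card + β.card + 1 = σ.card := by
    rw [Finset.card_image_of_injOn hφinj, Finset.card_sdiff_of_subset hbσ]
    have := Finset.card_le_card hbσ
    omega
  obtain ⟨hsupp, hbd⟩ := hC _ hch hd (by omega)
  have hTgood : ∀ T, IsOppChain Fl (β ∪ T) → Disjoint T β →
      IsCell (g T) ∧ (g T).card = b.card + T.card ∧ steep (hHi p) (g T) = b ∧
        level (hHi p) (g T) = level (hHi p) b ∧
        Set.InjOn ψ ↑T ∧ Disjoint b (T.image ψ) := by
    intro T hT hTd
    obtain ⟨hcell, hW⟩ := hψ T hT hTd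
    have hinj : Set.InjOn ψ ↑T := fun W hW' W' hW'' h => by
      rw [← (hW W hW').2, h, (hW W' hW'').2]
    have hdis : Disjoint b (T.image ψ) := by
      rw [Finset.disjoint_right]
      intro x hx
      obtain ⟨W, hW', rfl⟩ := Finset.mem_image.1 hx
      exact (hW W hW').1.1
    have := steep_union H hst (τ := T.image ψ) (fun x hx => by
      obtain ⟨W, hW', rfl⟩ := Finset.mem_image.1 hx
      exact (hW W hW').1) hcell
    refine ⟨hcell, ?_, this.1, this.2, hinj, hdis⟩
    rw [Finset.card_union_of_disjoint hdis, Finset.card_image_of_injOn hinj]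
  constructor
  · intro τ hτ
    obtain ⟨T, hT, rfl⟩ := Finset.mem_image.1 (Finsupp.mapDomain_support hτ)
    obtain ⟨h1, h2, h3⟩ := hsupp T hT
    obtain ⟨a1, a2, -, a3, -⟩ := hTgood T h3 h2
    exact ⟨a1, by omega, a3⟩
  · -- the flat boundary of the image is the image of the boundary
    have key : ∀ T, IsOppChain Fl (β ∪ T) → Disjoint T β →
        (bd (Finsupp.single (g T) 1)).filter (fun τ => level (hHi p) τ = level (hHi p) b) =
          Finsupp.mapDomain g (bd (Finsupp.single T 1)) := by
      intro T hT hTd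
      obtain ⟨a1, -, a2, a3, hinj, hdis⟩ := hTgood T hT hTd
      rw [bd_single, bd_single, Finsupp.filter_sum, Finsupp.mapDomain_finsetSum,
        show g T = b ∪ T.image ψ from rfl, Finset.sum_union hdis]
      have hzero : ∀ x ∈ b, (Finsupp.single ((b ∪ T.image ψ).erase x) (1 : ZMod 2)).filter
          (fun τ => level (hHi p) τ = level (hHi p) b) = 0 := fun x hx =>
        Finsupp.filter_single_of_neg (fun τ => level (hHi p) τ = level (hHi p) b) fun h =>
          (level_erase_lt H a1 (v := x) (a2.symm ▸ hx)).ne (h.trans a3.symm)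
      rw [Finset.sum_eq_zero hzero, zero_add, Finset.sum_image hinj]
      · refine Finset.sum_congr rfl fun W hW => ?_
        have he : (b ∪ T.image ψ).erase (ψ W) = g (T.erase W) := by
          have hWb : ψ W ∉ b := Finset.disjoint_right.1 hdis (Finset.mem_image_of_mem ψ hW)
          ext y
          simp only [hg, Finset.mem_erase, Finset.mem_union, Finset.mem_image]
          constructor
          · rintro ⟨hne, hy | ⟨W', hW', rfl⟩⟩
            · exact Or.inl hy
            · exact Or.inr ⟨W', ⟨fun h => hne (h ▸ rfl), hW'⟩, rfl⟩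
          · rintro (hy | ⟨W', ⟨hne, hW'⟩, rfl⟩)
            · exact ⟨fun h => hWb (h ▸ hy), Or.inl hy⟩
            · exact ⟨fun h => hne (hinj hW' hW h), Or.inr ⟨W', hW', rfl⟩⟩
        obtain ⟨-, -, -, hlev, -⟩ := hTgood (T.erase W)
          ⟨fun V hV => hT.1 V (Finset.union_subset_union_right (Finset.erase_subset _ _) hV),
            fun V hV V' hV' => hT.2 V (Finset.union_subset_union_right (Finset.erase_subset _ _) hV)
              V' (Finset.union_subset_union_right (Finset.erase_subset _ _) hV')⟩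
          (hTd.mono_left (Finset.erase_subset _ _))
        rw [he, Finsupp.filter_single_of_pos (fun τ => level (hHi p) τ = level (hHi p) b) hlev,
          Finsupp.mapDomain_single]
    let P : Ch (Vx p r) →ₗ[ZMod 2] Ch (Vx p r) :=
      { toFun := fun y => y.filter fun τ => level (hHi p) τ = level (hHi p) b
        map_add' := fun _ _ => Finsupp.filter_add
        map_smul' := fun _ _ => Finsupp.filter_smul }
    let G : Ch (Submodule (ZMod p) (Fin r → ZMod p)) →ₗ[ZMod 2] Ch (Vx p r) :=
      Finsupp.lmapDomain (ZMod 2) (ZMod 2) g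
    set w := C ((σ \ b).image φ) with hw
    have hmain : P (bd (G w)) = G (bd w) := by
      have hw' : w = ∑ T ∈ w.support, w T • Finsupp.single T (1 : ZMod 2) := by
        conv_lhs => rw [← Finsupp.sum_single w]
        simp [Finsupp.sum]
      conv_lhs => rw [hw']
      conv_rhs => rw [hw']
      simp only [map_sum, map_smul]
      refine Finset.sum_congr rfl fun T hT => congrArg (w T • ·) ?_
      have hGs : G (Finsupp.single T 1) = Finsupp.single (g T) 1 := Finsupp.mapDomain_single
      rw [hGs]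
      exact key T (hsupp T hT).2.2 (hsupp T hT).2.1
    change P (bd (G w)) = _
    rw [hmain, hbd, map_add, map_sum, Finset.sum_image hφinj]
    congr 1
    · rw [Finsupp.lmapDomain_apply, Finsupp.mapDomain_single]
      congr 1
      simp only [hg]
      rw [Finset.image_image, Finset.image_congr (f := ψ ∘ φ) (g := id) fun x hx => (hgood x (hgoodσ x hx)).2,
        Finset.image_id, Finset.union_sdiff_of_subset hbσ]
    · refine Finset.sum_congr rfl fun x hx => ?_
      change G _ = G _
      congr 2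
      rw [Finset.erase_sdiff_comm]
      ext W
      simp only [Finset.mem_erase, Finset.mem_image]
      constructor
      · rintro ⟨hne, w, hw, rfl⟩
        exact ⟨w, ⟨fun h => hne (h ▸ rfl), hw⟩, rfl⟩
      · rintro ⟨w, ⟨hne, hw⟩, rfl⟩
        exact ⟨fun h => hne (hφinj hw hx h), w, hw, rfl⟩

open Classical in
/-- Cells of level zero are acyclic below the rank. -/
theorem level_zero_acyclic (H : IsHeight p r (hHi p)) (H' : IsHeight p r (rk p))
    (hlink : ∀ b, IsCell b → b.Nonempty → HasLink (p := p) (r := r) b) (hcones : HasCones p r)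
    {k : ℕ} (hk : k + 1 < r) (z : Ch (Vx p r))
    (hz : Supp (fun σ => IsCell σ ∧ σ.card = k ∧ level (hHi p) σ = 0) z) (hbd : bd z = 0) :
    ∃ w, Supp (fun σ => IsCell σ ∧ σ.card = k + 1 ∧ level (hHi p) σ = 0) w ∧ bd w = z := by
  obtain ⟨w₀, hw₀, hbd₀⟩ := cells_acyclic H' (by omega)
    (hz.mono fun σ h => ⟨h.1, h.2.1⟩) hbd
  suffices h : ∀ L (w : Ch (Vx p r)),
      Supp (fun σ => IsCell σ ∧ σ.card = k + 1 ∧ level (hHi p) σ ≤ L) w → bd w = z →
      ∃ w, Supp (fun σ => IsCell σ ∧ σ.card = k + 1 ∧ level (hHi p) σ = 0) w ∧ bd w = z from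
    h (w₀.support.sup (level (hHi p))) w₀
      (fun σ hσ => ⟨(hw₀ σ hσ).1, (hw₀ σ hσ).2, Finset.le_sup hσ⟩) hbd₀
  intro L
  induction L using Nat.strong_induction_on with
  | _ L ih =>
    intro w hw hbw
    rcases Nat.eq_zero_or_pos L with rfl | hL
    · exact ⟨w, hw.mono fun σ h => ⟨h.1, h.2.1, Nat.le_zero.1 h.2.2⟩, hbw⟩
    set K : Finset (Vx p r) → Finset (Vx p r) → Ch (Vx p r) := fun b =>
      if h : IsCell b ∧ b.Nonempty ∧ steep (hHi p) b = b then
        (exists_hom H hlink hcones h.1 h.2.1 h.2.2).choose else fun _ => 0 with hK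
    set Hom : Finset (Vx p r) → Ch (Vx p r) := fun σ => K (steep (hHi p) σ) σ with hHom
    have hspec : ∀ σ, IsCell σ → σ.card ≤ k + 1 → level (hHi p) σ = L →
        level (hHi p) (steep (hHi p) σ) = L ∧
        Supp (fun τ => IsCell τ ∧ τ.card = σ.card + 1 ∧
          level (hHi p) τ = level (hHi p) (steep (hHi p) σ)) (Hom σ) ∧
        (bd (Hom σ)).filter (fun τ => level (hHi p) τ = level (hHi p) (steep (hHi p) σ)) =
          Finsupp.single σ 1 +
            ∑ x ∈ σ \ steep (hHi p) σ, K (steep (hHi p) σ) (σ.erase x) := by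
      intro σ hσ hc hlev
      obtain ⟨h2, h3⟩ := steep_of_between H hσ subset_rfl (steep_subset _ σ)
      have h1 : IsCell (steep (hHi p) σ) := hσ.subset (steep_subset _ _)
      have hne : (steep (hHi p) σ).Nonempty := by
        rw [Finset.nonempty_iff_ne_empty]
        intro he
        rw [he] at h3
        have : level (hHi p) (∅ : Finset (Vx p r)) = 0 := by simp [level, covered]
        omega
      have hspec := (exists_hom H hlink hcones h1 hne h2).choose_spec σ hσ rfl (by omega)
      have he : K (steep (hHi p) σ) = (exists_hom H hlink hcones h1 hne h2).choose :=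
        dif_pos ⟨h1, hne, h2⟩
      rw [← he] at hspec
      exact ⟨h3.trans hlev, hspec⟩
    have hhom : ∀ σ, IsCell σ → σ.card ≤ k + 1 → level (hHi p) σ = L →
        (bd (Hom σ)).filter (fun τ => level (hHi p) τ = L) = Finsupp.single σ 1 +
          ∑ x ∈ σ.filter (fun x => level (hHi p) (σ.erase x) = L), Hom (σ.erase x) := by
      intro σ hσ hc hlev
      obtain ⟨h1, -, h2⟩ := hspec σ hσ hc hlev
      rw [h1] at h2
      rw [h2]
      congr 1
      refine Finset.sum_congr ?_ fun x hx => ?_
      · ext x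
        simp only [Finset.mem_sdiff, Finset.mem_filter]
        constructor
        · rintro ⟨hx, hns⟩
          exact ⟨hx, (steep_of_between H hσ (Finset.subset_erase.2 ⟨steep_subset _ _, hns⟩)
            (Finset.erase_subset _ _)).2.trans hlev⟩
        · rintro ⟨hx, hl⟩
          exact ⟨hx, fun hs => (level_erase_lt H hσ hs).ne (hl.trans hlev.symm)⟩
      · obtain ⟨hxσ, hl⟩ := Finset.mem_filter.1 hx
        have hns : x ∉ steep (hHi p) σ := fun hs =>
          (level_erase_lt H hσ hs).ne (hl.trans hlev.symm)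
        simp only [hHom]
        rw [(steep_of_between H hσ (Finset.subset_erase.2 ⟨steep_subset _ _, hns⟩)
            (Finset.erase_subset _ _)).1]
    obtain ⟨u, -, hu⟩ := push_down H Hom (L := L) (fun σ hσ hc hlev => by
        obtain ⟨h1, h2, -⟩ := hspec σ hσ hc hlev
        rw [h1] at h2
        exact h2) hhom le_rfl hw
      (hbw ▸ hz.mono fun σ h => by omega)
    exact ih (L - 1) (by omega) (w + bd u) (hu.mono fun σ h => ⟨h.1, h.2.1, by omega⟩)
      (by rw [map_add, bd_bd, add_zero, hbw])

end Vale.Agent.P067.Full.Acyc
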