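import Vale.Agent.P067.Full.Statements
import Vale.Agent.P067.Full.Acyc.Push

/-!
Opposite cells of level zero are acyclic, given the heights, the links and the cones.
-/

namespace Vale.Agent.P067.Full.Acyc

open Finset Vale.Agent.HDX

/-- The cones of `OppCones` for large primes. -/
lemma exists_cones (hC : OppCones) (r : ℕ) :
    ∃ p₀ : ℕ, ∀ (p : ℕ) [Fact p.Prime], p₀ ≤ p → HasCones p r := by
  obtain ⟨p₀, B, h⟩ := hC r
  refine ⟨p₀, fun p _ hp Fl hFl β hβ => ?_⟩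
  obtain ⟨C, hC⟩ := h (ZMod p) (by rw [ZMod.card]; exact hp) Fl hFl β hβ
  exact ⟨C, fun σ h1 h2 h3 => ⟨(hC σ h1 h2 h3).1, (hC σ h1 h2 h3).2.1⟩⟩

end Vale.Agent.P067.Full.Acyc
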