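import Vale.Agent.P067.Full.Acyc.Cell

/-!
For the height against `lo`, every steep cell has a missing type, and for each missing type exactly
one good vertex. So the building is acyclic.
-/

namespace Vale.Agent.P067.Full.Acyc

open Finset Vale.Agent.HDX

variable {p r : ℕ} [Fact p.Prime] [NeZero r]

omit [NeZero r] in
lemma map_tr_mul (L : Submodule (ZMod p) (M p)) (q q' : ℤ) :
    (L.map (tr p ((r : ℤ) * q')).toLinearMap).map (tr p ((r : ℤ) * q)).toLinearMap =
      L.map (tr p ((r : ℤ) * (q + q'))).toLinearMap := by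
  rw [map_tr_tr, mul_add]

omit [NeZero r] in
lemma isLat_mem {v : Vx p r} (hv : IsLat p r v.2 ((v.1 : ℕ) : ℤ)) (q : ℤ) :
    IsLat p r (mem v q) (idx v q) := hv.map_tr _

omit [Fact p.Prime] [NeZero r] in
lemma mem_zero (v : Vx p r) : mem v 0 = v.2 := by
  rw [mem, mul_zero, map_tr_zero]

omit [Fact p.Prime] [NeZero r] in
lemma idx_zero (v : Vx p r) : idx v 0 = ((v.1 : ℕ) : ℤ) := by simp [idx]

omit [Fact p.Prime] [NeZero r] in
lemma mem_succ (v : Vx p r) (q : ℤ) :
    mem v (q + 1) = (mem v q).map (shift p r) := by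
  rw [shift_eq_tr, mem, mem, map_tr_tr]
  congr 3
  ring

/-- Members of a cell are ordered by their indices. -/
lemma mem_mono {σ : Finset (Vx p r)} (hσ : IsCell σ) {u w : Vx p r} (hu : u ∈ σ) (hw : w ∈ σ)
    {q q' : ℤ} (h : idx u q ≤ idx w q') : mem u q ≤ mem w q' := by
  have up : ∀ n : ℕ, mem w q ≤ mem w (q + n) := by
    intro n
    induction n with
    | zero => simp
    | succ n ih =>
      refine ih.trans ?_
      rw [show q + ((n + 1 : ℕ) : ℤ) = q + n + 1 by push_cast; ring, mem_succ]
      exact (isLat_mem (hσ.1 w hw) _).stable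
  have hr : (0 : ℤ) < r := r_pos
  have hqq : q ≤ q' := by
    by_contra hlt
    have hm : (r : ℤ) * (q' + 1) ≤ r * q := mul_le_mul_of_nonneg_left (by omega) hr.le
    have := u.1.2
    have := w.1.2
    unfold idx at h
    rw [mul_add, mul_one] at hm
    omega
  rcases lt_trichotomy u.1 w.1 with hlt | heq | hgt
  · refine le_trans ?_ ((up (q' - q).toNat).trans (le_of_eq (by congr 1; omega)))
    exact Submodule.map_mono ((hσ.2 u hu w hw).2 hlt).1
  · obtain rfl := (hσ.2 u hu w hw).1 heq
    exact (up (q' - q).toNat).trans (le_of_eq (by congr 1; omega))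
  · have h1 : mem u q ≤ mem w (q + 1) := by
      refine (Submodule.map_mono ((hσ.2 w hw u hu).2 hgt).2).trans (le_of_eq ?_)
      rw [shift_eq_tr, map_tr_tr, mem]
      congr 3
      ring
    have hq1 : q + 1 ≤ q' := by
      by_contra hlt
      obtain rfl : q' = q := by omega
      have := Fin.lt_def.mp hgt
      unfold idx at h
      omega
    refine h1.trans ?_
    have key : ∀ n : ℕ, mem w (q + 1) ≤ mem w (q + 1 + n) := by
      intro n
      induction n with
      | zero => simp
      | succ n ih =>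
        refine ih.trans ?_
        rw [show q + 1 + ((n + 1 : ℕ) : ℤ) = q + 1 + n + 1 by push_cast; ring, mem_succ]
        exact (isLat_mem (hσ.1 w hw) _).stable
    exact (key (q' - (q + 1)).toNat).trans (le_of_eq (by congr 1; omega))

omit [NeZero r] in
lemma isCell_insert {σ : Finset (Vx p r)} {x : Vx p r} (hσ : IsCell σ)
    (hx : IsLat p r x.2 ((x.1 : ℕ) : ℤ)) (h : ∀ v ∈ σ, Compat x v ∧ Compat v x) :
    IsCell (insert x σ) := by
  refine ⟨fun y hy => ?_, fun y hy z hz => ?_⟩
  · rcases Finset.mem_insert.1 hy with e | e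
    · exact e ▸ hx
    · exact hσ.1 y e
  · rcases Finset.mem_insert.1 hy with e | e <;> rcases Finset.mem_insert.1 hz with e' | e'
    · subst e e'
      exact ⟨fun _ => rfl, fun h => absurd h (lt_irrefl _)⟩
    · exact e ▸ (h z e').1
    · exact e' ▸ (h y e).2
    · exact hσ.2 y e z e'

omit [Fact p.Prime] [NeZero r] in
lemma idx_inj {σ : Finset (Vx p r)} (hσ : IsCell σ) {u w : Vx p r} (hu : u ∈ σ) (hw : w ∈ σ)
    {q q' : ℤ} (h : idx u q = idx w q') : u = w := by
  refine (hσ.2 u hu w hw).1 (Fin.ext ?_)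
  have e := congrArg (· % (r : ℤ)) h
  simp only [idx, Int.add_mul_emod_self_left] at e
  rw [Int.emod_eq_of_lt (by omega) (by omega), Int.emod_eq_of_lt (by omega) (by omega)] at e
  exact_mod_cast e

omit [NeZero r] in
/-- A member covers what it dominates. -/
lemma cov_of_member {h : Submodule (ZMod p) (M p) → ℤ → ℕ} (H : IsHeight p r h) (v : Vx p r)
    (q : ℤ) {n m : ℤ} {u : ℕ} (hu : max 0 (n - m) < (u : ℤ))
    (hc : (u : ℤ) + max 0 (idx v q - n) ≤ (h (mem v q) m : ℤ)) : Cov h v n m u := by
  refine ⟨q, hu, hc.trans (le_of_eq ?_)⟩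
  have := H.map_tr v.2 ((r : ℤ) * q) (m - r * q)
  rw [sub_add_cancel] at this
  rw [mem, this]

omit [NeZero r] in
/-- What is covered is dominated by a member. -/
lemma exists_member {h : Submodule (ZMod p) (M p) → ℤ → ℕ} (H : IsHeight p r h) {v : Vx p r}
    {n m : ℤ} {u : ℕ} (hc : Cov h v n m u) : max 0 (n - m) < (u : ℤ) ∧
      ∃ q, (u : ℤ) + max 0 (idx v q - n) ≤ (h (mem v q) m : ℤ) := by
  obtain ⟨q, h1, h2⟩ := hc
  refine ⟨h1, q, h2.trans (le_of_eq ?_)⟩
  have := H.map_tr v.2 ((r : ℤ) * q) (m - r * q)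
  rw [sub_add_cancel] at this
  rw [mem, this]

/-! ### The height against `lo` -/

omit [NeZero r] in
lemma rk_eq_window {L : Submodule (ZMod p) (M p)} {b : ℤ} (hb : L ≤ lo p b) (m : ℤ) :
    rk p L m = Module.finrank (ZMod p) (L.map (win p m b)) :=
  finrank_map_congr L _ _ fun _ hx => mkQ_lo_ker_eq (hb hx)

omit [NeZero r] in
lemma le_sup_lo_of_rk {L L' : Submodule (ZMod p) (M p)} {b m : ℤ} (hb : L' ≤ lo p b)
    (hle : L ≤ L') (h : rk p L' m ≤ rk p L m) : L' ≤ L ⊔ lo p m := by
  rw [rk_eq_window hb, rk_eq_window (hle.trans hb)] at h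
  have he := Submodule.eq_of_le_of_finrank_le (Submodule.map_mono (f := win p m b) hle) h
  intro x hx
  obtain ⟨y, hy, hyx⟩ : win p m b x ∈ L.map (win p m b) := he ▸ Submodule.mem_map_of_mem hx
  have : x - y ∈ lo p m := (win_ker_eq (Submodule.sub_mem _ (hb hx) (hb (hle hy)))).1
    (by rw [map_sub, hyx, sub_self])
  simpa using Submodule.add_mem_sup hy this

omit [NeZero r] in
lemma rk_le_of_le_sup {L L' : Submodule (ZMod p) (M p)} {b m : ℤ} (hb : L ≤ lo p b)
    (h : L' ≤ L ⊔ lo p m) (hb' : L' ≤ lo p b) : rk p L' m ≤ rk p L m := by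
  rw [rk_eq_window hb, rk_eq_window hb']
  refine Submodule.finrank_mono ?_
  rintro _ ⟨x, hx, rfl⟩
  obtain ⟨y, hy, z, hz, rfl⟩ := Submodule.mem_sup.1 (h hx)
  have hzb : z ∈ lo p b := by simpa using Submodule.sub_mem _ (hb' hx) (hb hy)
  refine ⟨y, hy, ?_⟩
  rw [map_add, (win_ker_eq hzb).2 hz, add_zero]

omit [NeZero r] in
/-- If `B ⊓ lo m ≤ C ≤ B` the ranks differ by the difference of indices. -/
lemma rk_add {C B : Submodule (ZMod p) (M p)} {n n' m : ℤ} (hC : IsLat p r C n)
    (hB : IsLat p r B n') (hle : C ≤ B) (hm : B ⊓ lo p m ≤ C) :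
    (rk p B m : ℤ) = rk p C m + (n' - n) := by
  obtain ⟨a, b, -, hb, -, hb'⟩ := hC.common hB
  rw [← hC.finrank_quot hB hle, rk_eq_window hb', rk_eq_window hb]
  have e : Module.finrank (ZMod p) (B.map C.mkQ) =
      Module.finrank (ZMod p) ((B.map (win p m b)).map (C.map (win p m b)).mkQ) := by
    rw [← Submodule.map_comp]
    refine finrank_map_congr _ _ _ fun x hx => ?_
    simp only [LinearMap.comp_apply, Submodule.mkQ_apply, Submodule.Quotient.mk_eq_zero]
    refine ⟨Submodule.mem_map_of_mem, fun ⟨y, hy, hxy⟩ => ?_⟩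
    have : x - y ∈ lo p m :=
      (win_ker_eq (Submodule.sub_mem _ (hb' hx) (hb hy))).1 (by rw [map_sub, hxy, sub_self])
    simpa using C.add_mem (hm ⟨B.sub_mem hx (hle hy), this⟩) hy
  have h1 := finrank_map_add_ker (B.map (win p m b)) (C.map (win p m b)).mkQ
    (by rw [Submodule.ker_mkQ]; exact Submodule.map_mono hle)
  rw [Submodule.ker_mkQ] at h1
  omega

omit [NeZero r] in
lemma lo_succ_le {x : ℤ} {A B : Submodule (ZMod p) (M p)} :
    ∃ y, (A ⊔ (B ⊓ lo p (x + 1))) ≤ (A ⊔ (B ⊓ lo p x)) ⊔ Submodule.span (ZMod p) {y} := by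
  by_cases h : ∀ z ∈ B ⊓ lo p (x + 1), z x = 0
  · refine ⟨0, sup_le (le_sup_left.trans le_sup_left) fun z hz => ?_⟩
    refine Submodule.mem_sup_left (Submodule.mem_sup_right ⟨hz.1, mem_lo.2 fun k hk => ?_⟩)
    rcases eq_or_lt_of_le hk with rfl | hk'
    · exact h z hz
    · exact mem_lo.1 hz.2 k (by omega)
  · push Not at h
    obtain ⟨y, hy, hyx⟩ := h
    refine ⟨y, sup_le (le_sup_left.trans le_sup_left) fun z hz => ?_⟩
    set c := z x / y x with hc
    rw [show z = (z - c • y) + c • y by abel]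
    refine Submodule.add_mem_sup (Submodule.mem_sup_right
      ⟨B.sub_mem hz.1 (B.smul_mem _ hy.1), mem_lo.2 fun k hk => ?_⟩)
      (Submodule.mem_span_singleton.2 ⟨c, rfl⟩)
    rw [Finsupp.sub_apply, Finsupp.smul_apply, smul_eq_mul]
    rcases eq_or_lt_of_le hk with rfl | hk'
    · rw [hc, div_mul_cancel₀ _ hyx, sub_self]
    · rw [mem_lo.1 hz.2 k (by omega), mem_lo.1 hy.2 k (by omega), mul_zero, sub_zero]

omit [NeZero r] in
/-- Between nested lattices the standard flag cuts out a lattice of every index. -/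
lemma exists_cut {A B : Submodule (ZMod p) (M p)} {a b n : ℤ} (hA : IsLat p r A a)
    (hB : IsLat p r B b) (hAB : A ≤ B) (hBA : B ≤ A.map (shift p r)) (han : a < n) (hnb : n < b) :
    ∃ x, IsLat p r (A ⊔ (B ⊓ lo p x)) n := by
  obtain ⟨a₀, b₀, ha, hb, ha', hb'⟩ := hA.common hB
  set D : ℤ → ℕ := fun x => Module.finrank (ZMod p) ((A ⊔ (B ⊓ lo p x)).map A.mkQ) with hD
  have hlat : ∀ x, IsLat p r (A ⊔ (B ⊓ lo p x)) (a + D x) := fun x =>
    hA.between le_sup_left ((sup_le hAB inf_le_left).trans hBA)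
  have hlow : ∀ x ≤ a₀, D x = 0 := by
    intro x hx
    have h : A ⊔ (B ⊓ lo p x) = A := sup_eq_left.2 (inf_le_right.trans ((lo_mono hx).trans ha))
    have := (h ▸ hlat x).index_unique hA
    omega
  have hhigh : (D b₀ : ℤ) = b - a := by
    have h : A ⊔ (B ⊓ lo p b₀) = B := by rw [inf_eq_left.2 hb', sup_eq_right.2 hAB]
    have := (h ▸ hlat b₀).index_unique hB
    omega
  obtain ⟨x, hx, hxmin⟩ : ∃ x, n - a ≤ (D x : ℤ) ∧ ∀ y, n - a ≤ (D y : ℤ) → x ≤ y :=
    Int.exists_least_of_bdd ⟨a₀, fun y hy => le_of_lt (lt_of_not_ge fun hya => by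
      have := hlow y hya; omega)⟩ ⟨b₀, by omega⟩
  refine ⟨x, ?_⟩
  have hprev : (D (x - 1) : ℤ) < n - a := lt_of_not_ge fun hge => by have := hxmin _ hge; omega
  have hstep : D x ≤ D (x - 1) + 1 := by
    obtain ⟨y, hy⟩ := lo_succ_le (p := p) (x := x - 1) (A := A) (B := B)
    rw [sub_add_cancel] at hy
    have : FiniteDimensional (ZMod p) (B.map A.mkQ) :=
      Module.finite_of_finrank_pos (by have := hA.finrank_quot hB hAB; omega)
    have : FiniteDimensional (ZMod p) ((A ⊔ (B ⊓ lo p (x - 1))).map A.mkQ) :=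
      Submodule.finiteDimensional_of_le (Submodule.map_mono (sup_le hAB inf_le_left))
    simp only [hD]
    refine (Submodule.finrank_mono (t := (A ⊔ (B ⊓ lo p (x - 1))).map A.mkQ ⊔
      (Submodule.span (ZMod p) {y}).map A.mkQ) (by
        rw [← Submodule.map_sup]; exact Submodule.map_mono hy)).trans ?_
    refine (Submodule.finrank_add_le_finrank_add_finrank _ _).trans (Nat.add_le_add_left ?_ _)
    refine (Submodule.finrank_map_le _ _).trans ?_
    refine (finrank_span_le_card _).trans ?_
    simp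
  have := hlat x
  rwa [show a + (D x : ℤ) = n by omega] at this

section

variable {b : Finset (Vx p r)}

omit [Fact p.Prime] [NeZero r] in
/-- The neighbours of an index among the members of a cell. -/
lemma exists_nbrs (hne : b.Nonempty) {c : Fin r} (hc : ∀ v ∈ b, v.1 ≠ c) :
    ∃ u w : Vx p r, ∃ q q' : ℤ, u ∈ b ∧ w ∈ b ∧ idx u q < ((c : ℕ) : ℤ) ∧
      ((c : ℕ) : ℤ) < idx w q' ∧ idx w q' ≤ idx u q + r ∧
      ∀ v ∈ b, ∀ k, idx v k ≤ idx u q ∨ idx w q' ≤ idx v k := by
  classical
  set lq : Vx p r → ℤ := fun v => if (v.1 : ℕ) < (c : ℕ) then 0 else -1 with hlq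
  obtain ⟨u, hu, humax⟩ := Finset.exists_max_image b (fun v => idx v (lq v)) hne
  obtain ⟨w, hw, hwmin⟩ := Finset.exists_min_image b (fun v => idx v (lq v + 1)) hne
  refine ⟨u, w, lq u, lq w + 1, hu, hw, ?_, ?_, ?_, fun v hv k => ?_⟩
  · have := Fin.val_ne_of_ne (hc u hu)
    simp only [hlq, idx]
    split_ifs <;> omega
  · have := Fin.val_ne_of_ne (hc w hw)
    simp only [hlq, idx]
    split_ifs <;> omega
  · have := hwmin u hu
    simp only [idx, mul_add, mul_one] at this ⊢
    omega
  · have hr : (0 : ℤ) ≤ r := by positivity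
    rcases le_or_gt k (lq v) with hk | hk
    · left
      refine le_trans ?_ (humax v hv)
      unfold idx
      have := mul_le_mul_of_nonneg_left hk hr
      omega
    · right
      refine (hwmin v hv).trans ?_
      unfold idx
      have := mul_le_mul_of_nonneg_left (show lq v + 1 ≤ k by omega) hr
      omega

/-- A good vertex of every missing type. -/
lemma exists_good (H : IsHeight p r (rk p)) (hb : IsCell b) {c : Fin r}
    (hc : ∀ v ∈ b, v.1 ≠ c) : ∃ v, Good (rk p) b v ∧ v.1 = c ∧
      ∀ v', Good (rk p) b v' → v'.1 = c → v' = v := by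
  rcases b.eq_empty_or_nonempty with rfl | hne
  · refine ⟨(c, lo p ((c : ℕ) : ℤ)), ⟨by simp, (isOpp_lo _).1, by simp, ?_⟩, rfl, ?_⟩
    · intro n m u hcov
      obtain ⟨hu, q, hq⟩ := exists_member H hcov
      have := H.le_top (L := mem (c, lo p ((c : ℕ) : ℤ)) q) (b := idx (c, lo p ((c : ℕ) : ℤ)) q)
        (le_of_eq (map_tr_lo _ _)) m
      omega
    · rintro v' ⟨-, hl, -, hcov⟩ hty
      obtain ⟨a₀, b₀, -, -, hb₀⟩ := hl.bounds
      have h0 : rk p v'.2 ((c : ℕ) : ℤ) = 0 := by
        by_contra hpos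
        obtain ⟨w, hw, -⟩ := hcov ((c : ℕ) : ℤ) ((c : ℕ) : ℤ) 1
          (cov_of_member H v' 0 (by simp) (by rw [mem_zero, idx_zero, hty]; omega))
        simp at hw
      have hle : v'.2 ≤ lo p ((c : ℕ) : ℤ) := by
        have := le_sup_lo_of_rk (L := ⊥) hb₀ bot_le (h0.le.trans (Nat.zero_le _))
        simpa using this
      exact Prod.ext hty ((hty ▸ hl).eq_of_le (isOpp_lo _).1 hle)
  obtain ⟨u, w, q, q', hu, hw, huc, hcw, hwu, hbetween⟩ := exists_nbrs hne hc
  have hA := isLat_mem (hb.1 u hu) q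
  have hB := isLat_mem (hb.1 w hw) q'
  have hAB : mem u q ≤ mem w q' := mem_mono hb hu hw (by omega)
  have hBA : mem w q' ≤ (mem u q).map (shift p r) := by
    rw [← mem_succ]
    refine mem_mono hb hw hu ?_
    unfold idx at hwu ⊢
    rw [mul_add, mul_one]
    omega
  obtain ⟨x, hx⟩ := exists_cut hA hB hAB hBA huc hcw
  set C := mem u q ⊔ (mem w q' ⊓ lo p x) with hC
  have hCB : C ≤ mem w q' := sup_le hAB inf_le_left
  obtain ⟨a₀, b₀, -, hAb, -, hBb⟩ := hA.common hB
  have hhigh : ∀ m, x ≤ m → rk p C m ≤ rk p (mem u q) m := fun m hm =>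
    rk_le_of_le_sup hAb (sup_le le_sup_left
      (inf_le_right.trans ((lo_mono hm).trans le_sup_right))) (hCB.trans hBb)
  have hlow : ∀ m, m ≤ x → (rk p (mem w q') m : ℤ) = rk p C m + (idx w q' - (c : ℕ)) := fun m hm =>
    rk_add hx hB hCB ((inf_le_inf_left _ (lo_mono hm)).trans le_sup_right)
  refine ⟨(c, C), ⟨fun h => hc _ h rfl, hx, fun v hv => ⟨⟨fun h => absurd h.symm (hc v hv),
    fun h => ?_⟩, ⟨fun h => absurd h (hc v hv), fun h => ?_⟩⟩, ?_⟩, rfl, ?_⟩
  · -- `c` before `v`
    have h' := Fin.lt_def.mp h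
    simp only at h'
    have h1 : idx w q' ≤ idx v 0 := (hbetween v hv 0).resolve_left (by rw [idx_zero]; omega)
    have h2 : idx v (-1) ≤ idx u q := (hbetween v hv (-1)).resolve_right (by
      rw [show idx v (-1) = ((v.1 : ℕ) : ℤ) - r by unfold idx; ring]
      have := v.1.2
      omega)
    refine ⟨(hCB.trans (mem_mono hb hw hv h1)).trans (mem_zero v).le, ?_⟩
    have h3 := Submodule.map_mono (f := shift p r)
      ((mem_mono hb hv hu h2).trans (le_sup_left : mem u q ≤ C))
    rw [← mem_succ] at h3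
    rw [show (-1 : ℤ) + 1 = 0 by ring, mem_zero] at h3
    exact h3
  · -- `v` before `c`
    have h' := Fin.lt_def.mp h
    simp only at h'
    have h1 : idx v 0 ≤ idx u q := (hbetween v hv 0).resolve_right (by rw [idx_zero]; omega)
    have h2 : idx w q' ≤ idx v 1 := (hbetween v hv 1).resolve_left (by
      rw [show idx v 1 = ((v.1 : ℕ) : ℤ) + r by unfold idx; ring]
      omega)
    refine ⟨(mem_zero v).ge.trans ((mem_mono hb hv hu h1).trans le_sup_left), ?_⟩
    refine (hCB.trans (mem_mono hb hw hv h2)).trans (le_of_eq ?_)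
    rw [show (1 : ℤ) = 0 + 1 by ring, mem_succ, mem_zero]
  · -- nothing new is covered
    intro n m k hcov
    obtain ⟨hk, j, hj⟩ := exists_member H hcov
    have e : (rk p (mem (c, C) j) m : ℤ) = rk p C (m - r * j) := by
      have := H.map_tr C ((r : ℤ) * j) (m - r * j)
      rw [sub_add_cancel] at this
      rw [← this]
      rfl
    rw [e] at hj
    simp only [idx] at hj
    rcases le_total x (m - r * j) with hm | hm
    · refine ⟨u, hu, cov_of_member H u (q + j) hk ?_⟩
      have h1 := hhigh _ hm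
      have h2 := H.map_tr (mem u q) ((r : ℤ) * j) (m - r * j)
      rw [sub_add_cancel, mem, map_tr_tr] at h2
      rw [mem, show (r : ℤ) * (q + j) = r * j + r * q by ring, h2, ← mem]
      unfold idx at huc ⊢
      rw [mul_add]
      omega
    · refine ⟨w, hw, cov_of_member H w (q' + j) hk ?_⟩
      have h1 := hlow _ hm
      have h2 := H.map_tr (mem w q') ((r : ℤ) * j) (m - r * j)
      rw [sub_add_cancel, mem, map_tr_tr] at h2
      rw [mem, show (r : ℤ) * (q' + j) = r * j + r * q' by ring, h2, ← mem]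
      unfold idx at hcw h1 ⊢
      rw [mul_add]
      omega
  · rintro v' ⟨hvb, hl, hcomp, hcov⟩ hty
    have hcell : IsCell (insert v' b) := isCell_insert hb hl hcomp
    have hv' : v' ∈ insert v' b := Finset.mem_insert_self _ _
    have hidx : idx v' 0 = ((c : ℕ) : ℤ) := by rw [idx_zero, hty]
    have hAv : mem u q ≤ v'.2 := mem_zero v' ▸
      mem_mono hcell (Finset.mem_insert_of_mem hu) hv' (by omega)
    have hvB : v'.2 ≤ mem w q' := mem_zero v' ▸
      mem_mono hcell hv' (Finset.mem_insert_of_mem hw) (by omega)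
    have hxrk : rk p v'.2 x ≤ rk p (mem u q) x := by
      by_contra hlt
      have e1 := hhigh x le_rfl
      have e2 := H.ge hx x
      obtain ⟨v, hv, hcv⟩ := hcov ((c : ℕ) : ℤ) x (rk p v'.2 x)
        (cov_of_member H v' 0 (by omega) (by rw [mem_zero, hidx]; omega))
      obtain ⟨-, k, hk⟩ := exists_member H hcv
      rcases hbetween v hv k with hle | hle
      · have := H.mono (isLat_mem (hb.1 v hv) k) hA (mem_mono hb hv hu hle) x
        omega
      · have h1 := H.step hB (isLat_mem (hb.1 v hv) k) (mem_mono hb hw hv hle) x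
        have h2 := hlow x le_rfl
        omega
    have hle : v'.2 ≤ C := fun y hy => by
      obtain ⟨s, hs, t, ht, rfl⟩ :=
        Submodule.mem_sup.1 (le_sup_lo_of_rk (hvB.trans hBb) hAv hxrk hy)
      exact Submodule.add_mem_sup hs ⟨by
        simpa using Submodule.sub_mem _ (hvB hy) (hAB hs), ht⟩
    exact Prod.ext hty ((hty ▸ hl).eq_of_le hx hle)

/-- A steep cell misses some type. -/
lemma exists_missing (H : IsHeight p r (rk p)) (hr2 : 2 ≤ r) (hb : IsCell b)
    (hsteep : steep (rk p) b = b) : ∃ c : Fin r, ∀ v ∈ b, v.1 ≠ c := by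
  classical
  by_contra hall
  push Not at hall
  choose f hfb hfty using hall
  set L : ℤ → Submodule (ZMod p) (M p) := fun j => mem (f (coord r j)) (j / (r : ℤ)) with hL
  have hidx : ∀ j, idx (f (coord r j)) (j / (r : ℤ)) = j := by
    intro j
    rw [idx, hfty, coord_val, Int.emod_add_mul_ediv]
  have hlat : ∀ j, IsLat p r (L j) j := fun j => by
    have := isLat_mem (hb.1 _ (hfb (coord r j))) (j / (r : ℤ))
    rwa [hidx] at this
  have hmono : ∀ {i j : ℤ}, i ≤ j → L i ≤ L j := fun {i j} hij =>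
    mem_mono hb (hfb _) (hfb _) (by rw [hidx, hidx]; exact hij)
  have hper : ∀ j, L (j + r) = (L j).map (tr p (r : ℤ)).toLinearMap := by
    intro j
    simp only [hL]
    rw [show j + (r : ℤ) = j + r * 1 by ring, coord_add,
      Int.add_mul_ediv_left _ _ (r_pos (r := r)).ne', mem, mem, map_tr_tr]
    congr 3
    ring
  have hg : ∀ j, ∃ g, L (j + 1) ≤ L j ⊔ lo p g ∧ ∀ g', L (j + 1) ≤ L j ⊔ lo p g' → g ≤ g' := by
    intro j
    obtain ⟨a, b', ha, -, -, hb'⟩ := (hlat j).common (hlat (j + 1))
    refine Int.exists_least_of_bdd ⟨a, fun g' hg' => ?_⟩ ⟨b', hb'.trans le_sup_right⟩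
    by_contra hlt
    have heq : L (j + 1) = L j := le_antisymm
      (hg'.trans (sup_le le_rfl ((lo_mono (not_le.1 hlt).le).trans ha))) (hmono (by omega))
    have := (hlat j).index_unique (heq ▸ hlat (j + 1))
    omega
  choose g hg hgmin using hg
  have hdec : ∀ j, g (j + 1) < g j := by
    intro i
    by_contra hle
    set j := i + 1 with hj
    -- the vertex of index `j` covers nothing of its own
    have hv := hsteep ▸ (hfb (coord r j))
    obtain ⟨-, n, m, k, hc, honly⟩ := Finset.mem_filter.1 (show f (coord r j) ∈ steep (rk p) b by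
      rw [hsteep]; exact hfb _)
    obtain ⟨hk, q, hq⟩ := exists_member H hc
    have hne : ∀ d : ℤ, d = 1 ∨ d = -1 → ∀ s, f (coord r (s + d)) ≠ f (coord r s) := by
      intro d hd s he
      have e := congrArg (fun v : Vx p r => ((v.1 : ℕ) : ℤ)) he
      simp only [hfty, coord_val] at e
      have h0 : ((s + d) - s) % (r : ℤ) = 0 := Int.emod_eq_emod_iff_emod_sub_eq_zero.1 e
      rw [show s + d - s = d by ring] at h0
      rcases hd with rfl | rfl
      · rw [Int.emod_eq_of_lt (by omega) (by omega)] at h0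
        omega
      · have := Int.dvd_of_emod_eq_zero h0
        rw [Int.dvd_neg] at this
        have := Int.le_of_dvd one_pos this
        omega
    set s := idx (f (coord r j)) q with hs
    have hcs : coord r s = coord r j := by
      apply Fin.ext
      have e : ((coord r s : ℕ) : ℤ) = (coord r j : ℕ) := by
        rw [hs, coord_val, idx, hfty, coord_val, Int.add_mul_emod_self_left, Int.emod_emod]
      exact_mod_cast e
    have hLs : L s = mem (f (coord r j)) q := by
      simp only [hL, hcs]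
      congr 1
      rw [hs, idx, hfty, coord_val, Int.add_mul_ediv_left _ _ (r_pos (r := r)).ne',
        Int.ediv_eq_zero_of_lt (Int.emod_nonneg _ (r_pos (r := r)).ne')
          (Int.emod_lt_of_pos _ (r_pos (r := r))), zero_add]
    rw [← hLs] at hq
    -- translate the gaps to the index `s`
    obtain ⟨e, he⟩ : ∃ e, s = j + r * e := by
      refine ⟨q - j / r, ?_⟩
      rw [hs, idx, hfty, coord_val, Int.emod_def]
      ring
    have hge : ∀ z t, g (z + r * t) = g z + r * t := by
      have hper' : ∀ z t, L (z + r * t) = (L z).map (tr p ((r : ℤ) * t)).toLinearMap := by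
        intro z t
        simp only [hL]
        rw [coord_add, Int.add_mul_ediv_left _ _ (r_pos (r := r)).ne', mem, mem, map_tr_tr]
        congr 3
        ring
      have key : ∀ z t, g (z + r * t) ≤ g z + r * t := by
        intro z t
        refine hgmin _ _ ?_
        rw [show z + r * t + 1 = (z + 1) + r * t by ring, hper', hper', ← map_tr_lo,
          ← Submodule.map_sup]
        exact Submodule.map_mono (hg z)
      intro z t
      have h1 := key z t
      have h2 := key (z + r * t) (-t)
      rw [show z + r * t + r * (-t) = z by ring] at h2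
      linarith
    have hgs : g (s - 1) ≤ g s := by
      rw [he, show j + r * e - 1 = i + r * e by omega, hge, hge]
      omega
    obtain ⟨-, b₁, -, -, hb₁⟩ := (hlat (s + 1)).bounds
    rcases le_or_gt (g (s - 1)) m with hm | hm
    · -- covered by the member before
      have h1 : rk p (L s) m ≤ rk p (L (s - 1)) m := by
        refine rk_le_of_le_sup (b := b₁) ((hmono (by omega)).trans hb₁) ?_
          ((hmono (by omega)).trans hb₁)
        have := hg (s - 1)
        rw [sub_add_cancel] at this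
        exact this.trans (sup_le_sup_left (lo_mono hm) _)
      refine honly _ (hfb (coord r (s - 1))) ?_
        (cov_of_member H _ ((s - 1) / r) hk ?_)
      · rw [← hcs, sub_eq_add_neg]
        exact hne (-1) (Or.inr rfl) s
      · rw [hidx]
        change _ ≤ (rk p (L (s - 1)) m : ℤ)
        omega
    · -- covered by the member after
      have h1 : rk p (L s) m < rk p (L (s + 1)) m := by
        by_contra hle'
        have := hgmin s m (le_sup_lo_of_rk hb₁ (hmono (by omega)) (not_lt.1 hle'))
        omega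
      refine honly _ (hfb (coord r (s + 1))) ?_
        (cov_of_member H _ ((s + 1) / r) hk ?_)
      · rw [← hcs]
        exact hne 1 (Or.inl rfl) s
      · rw [hidx]
        change _ ≤ (rk p (L (s + 1)) m : ℤ)
        omega
  have hgr : g (0 + r) = g 0 + r := by
    have e1 : g (0 + r) ≤ g 0 + r := by
      refine hgmin _ _ ?_
      rw [show (0 : ℤ) + r + 1 = (0 + 1) + r by ring, hper, hper, ← map_tr_lo, ← Submodule.map_sup]
      exact Submodule.map_mono (hg 0)
    have e2 : g 0 ≤ g (0 + r) - r := by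
      refine hgmin _ _ ?_
      have := hg (0 + r)
      rw [show (0 : ℤ) + r + 1 = (0 + 1) + r by ring, hper, hper,
        show g (0 + (r : ℤ)) = (g (0 + r) - r) + r by ring, ← map_tr_lo, ← Submodule.map_sup] at this
      exact (Submodule.map_le_map_iff_of_injective (tr p (r : ℤ)).injective _ _).1 this
    omega
  have hlt : ∀ n : ℕ, g (n : ℤ) + n ≤ g 0 := by
    intro n
    induction n with
    | zero => simp
    | succ n ih =>
      have := hdec (n : ℤ)
      push_cast
      omega
  have := hlt r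
  rw [zero_add] at hgr
  omega

/-- The apex: a good vertex compatible with all good vertices. -/
lemma exists_apex (H : IsHeight p r (rk p)) (hr2 : 2 ≤ r) (hb : IsCell b)
    (hsteep : steep (rk p) b = b) :
    ∃ v, Good (rk p) b v ∧ ∀ x, Good (rk p) b x → Compat v x ∧ Compat x v := by
  classical
  obtain ⟨c, hc⟩ := exists_missing H hr2 hb hsteep
  obtain ⟨v, hv, hvc, huniq⟩ := exists_good H hb hc
  refine ⟨v, hv, fun x hx => ?_⟩
  by_cases hxc : x.1 = c
  · obtain rfl := huniq x hx hxc
    exact ⟨⟨fun _ => rfl, fun h => absurd h (lt_irrefl _)⟩,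
      ⟨fun _ => rfl, fun h => absurd h (lt_irrefl _)⟩⟩
  obtain ⟨hxb, hxl, hxcomp, hxcov⟩ := hx
  have hcell : IsCell (insert x b) := isCell_insert hb hxl hxcomp
  obtain ⟨v₁, hv₁, hv₁c, -⟩ := exists_good H hcell (c := c) (fun y hy => by
    rcases Finset.mem_insert.1 hy with rfl | hy
    · exact hxc
    · exact hc y hy)
  obtain ⟨h1, h2, h3, h4⟩ := hv₁
  have : Good (rk p) b v₁ := ⟨fun h => h1 (Finset.mem_insert_of_mem h), h2,
    fun y hy => h3 y (Finset.mem_insert_of_mem hy), fun n m u hcov => by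
      obtain ⟨y, hy, hcy⟩ := h4 n m u hcov
      rcases Finset.mem_insert.1 hy with rfl | hy
      · exact hxcov n m u hcy
      · exact ⟨y, hy, hcy⟩⟩
  obtain rfl := huniq v₁ this hv₁c
  exact h3 x (Finset.mem_insert_self _ _)

end

open Classical in
/-- The building, as a family of finite sets, is acyclic. -/
theorem cells_acyclic (H : IsHeight p r (rk p)) (hr2 : 2 ≤ r) {k : ℕ} {z : Ch (Vx p r)}
    (hz : Supp (fun σ => IsCell σ ∧ σ.card = k) z) (hbd : bd z = 0) :
    ∃ w, Supp (fun σ => IsCell σ ∧ σ.card = k + 1) w ∧ bd w = z := by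
  set apex : Finset (Vx p r) → Vx p r := fun b =>
    if h : IsCell b ∧ steep (rk p) b = b then (exists_apex H hr2 h.1 h.2).choose
    else (0, ⊥) with hapex
  set Hom : Finset (Vx p r) → Ch (Vx p r) := fun σ =>
    if apex (steep (rk p) σ) ∈ σ then 0
    else Finsupp.single (insert (apex (steep (rk p) σ)) σ) 1 with hHom
  have hbase : ∀ σ, IsCell σ → IsCell (steep (rk p) σ) ∧
      steep (rk p) (steep (rk p) σ) = steep (rk p) σ ∧
      level (rk p) (steep (rk p) σ) = level (rk p) σ := fun σ hσ =>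
    ⟨hσ.subset (steep_subset _ _), steep_of_between H hσ subset_rfl (steep_subset _ _)⟩
  have hap : ∀ σ, IsCell σ → Good (rk p) (steep (rk p) σ) (apex (steep (rk p) σ)) ∧
      IsCell (insert (apex (steep (rk p) σ)) σ) ∧
      steep (rk p) (insert (apex (steep (rk p) σ)) σ) = steep (rk p) σ ∧
      level (rk p) (insert (apex (steep (rk p) σ)) σ) = level (rk p) σ := by
    intro σ hσ
    obtain ⟨h1, h2, h3⟩ := hbase σ hσ
    have hv := (exists_apex H hr2 h1 h2).choose_spec
    have he : apex (steep (rk p) σ) = (exists_apex H hr2 h1 h2).choose := dif_pos ⟨h1, h2⟩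
    rw [← he] at hv
    set v := apex (steep (rk p) σ) with hvdef
    obtain ⟨hgood, hcompat⟩ := hv
    have hall : ∀ x ∈ σ, Compat v x ∧ Compat x v := fun x hx =>
      if hxs : x ∈ steep (rk p) σ then hgood.2.2.1 x hxs
      else hcompat x (good_of_not_steep H hσ hx hxs)
    have hcell : IsCell (insert v σ) := isCell_insert hσ hgood.2.1 hall
    have hu : insert v σ = steep (rk p) σ ∪ insert v (σ \ steep (rk p) σ) := by
      rw [Finset.union_insert, Finset.union_sdiff_of_subset (steep_subset _ _)]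
    have := steep_union H (τ := insert v (σ \ steep (rk p) σ)) h2 (fun x hx => by
      rcases Finset.mem_insert.1 hx with rfl | hx
      · exact hgood
      · exact good_of_not_steep H hσ (Finset.mem_sdiff.1 hx).1 (Finset.mem_sdiff.1 hx).2)
      (hu ▸ hcell)
    rw [← hu, h3] at this
    exact ⟨hgood, hcell, this⟩
  suffices h : ∀ L (z : Ch (Vx p r)),
      Supp (fun σ => IsCell σ ∧ σ.card = k ∧ level (rk p) σ ≤ L) z → bd z = 0 →
      ∃ w, Supp (fun σ => IsCell σ ∧ σ.card = k + 1) w ∧ bd w = z from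
    h (z.support.sup (level (rk p))) z
      (fun σ hσ => ⟨(hz σ hσ).1, (hz σ hσ).2, Finset.le_sup hσ⟩) hbd
  intro L
  induction L using Nat.strong_induction_on with
  | _ L ih =>
    intro z hz hbd
    have hsupp : ∀ σ, IsCell σ → σ.card ≤ k → level (rk p) σ = L →
        Supp (fun τ => IsCell τ ∧ τ.card = σ.card + 1 ∧ level (rk p) τ = L) (Hom σ) := by
      intro σ hσ _ hlev
      simp only [hHom]
      split_ifs with hv
      · exact Supp.zero
      · obtain ⟨-, h1, -, h3⟩ := hap σ hσ
        exact Supp.single ⟨h1, Finset.card_insert_of_notMem hv, h3.trans hlev⟩ 1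
    have hhom : ∀ σ, IsCell σ → σ.card ≤ k → level (rk p) σ = L →
        (bd (Hom σ)).filter (fun τ => level (rk p) τ = L) = Finsupp.single σ 1 +
          ∑ x ∈ σ.filter (fun x => level (rk p) (σ.erase x) = L), Hom (σ.erase x) := by
      intro σ hσ _ hlev
      obtain ⟨hgood, hcell, hst, hlv⟩ := hap σ hσ
      have hlevel : ∀ {τ : Finset (Vx p r)}, IsCell τ → ∀ {x}, x ∈ τ →
          (level (rk p) (τ.erase x) = level (rk p) τ ↔ x ∉ steep (rk p) τ) := by
        intro τ hτ x hx
        refine ⟨fun h hs => (level_erase_lt H hτ hs).ne h, fun h => ?_⟩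
        exact (steep_of_between H hτ (Finset.subset_erase.2 ⟨steep_subset _ _, h⟩)
          (Finset.erase_subset _ _)).2
      have hsame : ∀ x ∈ σ.filter (fun x => level (rk p) (σ.erase x) = L),
          steep (rk p) (σ.erase x) = steep (rk p) σ := by
        intro x hx
        obtain ⟨hx, hxl⟩ := Finset.mem_filter.1 hx
        exact (steep_of_between H hσ (Finset.subset_erase.2
          ⟨steep_subset _ _, (hlevel hσ hx).1 (hxl.trans hlev.symm)⟩) (Finset.erase_subset _ _)).1
      set v := apex (steep (rk p) σ) with hvdef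
      by_cases hv : v ∈ σ
      · have hvf : v ∈ σ.filter (fun x => level (rk p) (σ.erase x) = L) :=
          Finset.mem_filter.2 ⟨hv, ((hlevel hσ hv).2 hgood.1).trans hlev⟩
        rw [Finset.sum_eq_single_of_mem v hvf]
        · simp only [hHom]
          rw [← hvdef, if_pos hv, hsame v hvf, ← hvdef, if_neg (Finset.notMem_erase v σ),
            Finset.insert_erase hv, ZModModule.add_self, map_zero, Finsupp.filter_zero]
        · intro x hx hxv
          simp only [hHom]
          rw [hsame x hx, ← hvdef, if_pos (Finset.mem_erase.2 ⟨hxv.symm, hv⟩)]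
      · have hH : Hom σ = Finsupp.single (insert v σ) 1 := if_neg hv
        rw [hH, bd_single, Finsupp.filter_sum, Finset.sum_insert hv, Finset.erase_insert hv,
          Finsupp.filter_single_of_pos (fun τ => level (rk p) τ = L) hlev, Finset.sum_filter]
        congr 1
        refine Finset.sum_congr rfl fun x hx => ?_
        have hne : v ≠ x := fun h => hv (h ▸ hx)
        have hiff : level (rk p) ((insert v σ).erase x) = L ↔ level (rk p) (σ.erase x) = L := by
          conv_lhs => rw [← hlev, ← hlv, hlevel hcell (Finset.mem_insert_of_mem hx), hst]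
          conv_rhs => rw [← hlev, hlevel hσ hx]
        by_cases hx' : level (rk p) (σ.erase x) = L
        · rw [if_pos hx', Finsupp.filter_single_of_pos (fun τ => level (rk p) τ = L) (hiff.2 hx'),
            Finset.erase_insert_of_ne hne]
          simp only [hHom]
          rw [hsame x (Finset.mem_filter.2 ⟨hx, hx'⟩), ← hvdef,
            if_neg fun h => hv (Finset.mem_of_mem_erase h)]
        · rw [if_neg hx', Finsupp.filter_single_of_neg (fun τ => level (rk p) τ = L) fun h => hx' (hiff.1 h)]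
    obtain ⟨w, hw, hw'⟩ := push_down H Hom hsupp hhom le_rfl hz (by simp [hbd, Supp])
    have hbd' : bd (z + bd w) = 0 := by rw [map_add, hbd, bd_bd, add_zero]
    rcases Nat.eq_zero_or_pos L with rfl | hL
    · have h0 : z + bd w = 0 := Finsupp.support_eq_empty.1
        (Finset.eq_empty_of_forall_notMem fun σ hσ => absurd (hw' σ hσ).2.2 (Nat.not_lt_zero _))
      exact ⟨w, hw.mono fun σ h => ⟨h.1, h.2.1⟩,
        (eq_neg_of_add_eq_zero_right h0).trans (ZModModule.neg_eq_self _)⟩
    · obtain ⟨w', hw1, hw2⟩ := ih (L - 1) (by omega) (z + bd w)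
        (hw'.mono fun σ h => ⟨h.1, h.2.1, by omega⟩) hbd'
      refine ⟨w + w', (hw.mono fun σ h => ⟨h.1, h.2.1⟩).add hw1, ?_⟩
      rw [map_add, hw2, add_comm z, ← add_assoc, ZModModule.add_self, zero_add]

end Vale.Agent.P067.Full.Acyc
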