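import Vale.Agent.P067.Full.Acyc.Cell

/-!
The translation from periodic chains to cells: acyclicity of the cells of level zero gives
acyclicity of the opposite complex.
-/

namespace Vale.Agent.P067.Full.Acyc

open Finset Vale.Agent.HDX

variable {p r : ℕ}

/-- The set of typed vertices of a chain. -/
noncomputable def vset {k : ℕ} (s : Simp p r k) : Finset (Vx p r) := by
  classical exact univ.image fun i => ((s.ty i, s.lat i) : Vx p r)

lemma mem_vset {k : ℕ} {s : Simp p r k} {v : Vx p r} :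
    v ∈ vset s ↔ ∃ i, (s.ty i, s.lat i) = v := by
  simp [vset]

lemma vert_injective {k : ℕ} (s : Simp p r k) :
    Function.Injective fun i => ((s.ty i, s.lat i) : Vx p r) :=
  fun _ _ h => s.ty_mono.injective (congrArg Prod.fst h)

lemma card_vset {k : ℕ} (s : Simp p r k) : (vset s).card = k := by
  classical
  rw [vset, card_image_of_injective _ (vert_injective s), card_univ, Fintype.card_fin]

lemma isCell_vset {k : ℕ} (s : Simp p r k) : IsCell (vset s) := by
  refine ⟨fun v hv => ?_, fun u hu v hv => ?_⟩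
  · obtain ⟨i, rfl⟩ := mem_vset.1 hv
    exact s.isLat i
  · obtain ⟨i, rfl⟩ := mem_vset.1 hu
    obtain ⟨j, rfl⟩ := mem_vset.1 hv
    exact ⟨fun h => by rw [s.ty_mono.injective h],
      fun h => ⟨s.mono (s.ty_mono.lt_iff_lt.1 h).le, s.wrap j i⟩⟩

open Classical in
lemma vset_del {k : ℕ} (s : Simp p r (k + 1)) (i : Fin (k + 1)) :
    vset (s.del i) = (vset s).erase (s.ty i, s.lat i) := by
  ext v
  simp only [mem_erase, mem_vset, Simp.del, Function.comp_apply]
  constructor
  · rintro ⟨l, rfl⟩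
    exact ⟨fun h => Fin.succAbove_ne i l (vert_injective s h), i.succAbove l, rfl⟩
  · rintro ⟨hne, j, rfl⟩
    obtain ⟨l, hl⟩ := Fin.exists_succAbove_eq (fun h : j = i => hne (h ▸ rfl))
    exact ⟨l, hl ▸ rfl⟩

lemma vset_injective (k : ℕ) : Function.Injective (vset : Simp p r k → Finset (Vx p r)) := by
  intro s s' h
  have hmem : ∀ i, ∃ j, ((s'.ty j, s'.lat j) : Vx p r) = (s.ty i, s.lat i) := fun i =>
    mem_vset.1 (h ▸ mem_vset.2 ⟨i, rfl⟩)
  have hmem' : ∀ j, ∃ i, ((s.ty i, s.lat i) : Vx p r) = (s'.ty j, s'.lat j) := fun j =>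
    mem_vset.1 (h.symm ▸ mem_vset.2 ⟨j, rfl⟩)
  have hrange : Set.range s.ty = Set.range s'.ty := by
    ext t
    constructor
    · rintro ⟨i, rfl⟩
      obtain ⟨j, hj⟩ := hmem i
      exact ⟨j, congrArg Prod.fst hj⟩
    · rintro ⟨j, rfl⟩
      obtain ⟨i, hi⟩ := hmem' j
      exact ⟨i, congrArg Prod.fst hi⟩
  have hty : s.ty = s'.ty := (s.ty_mono.range_inj s'.ty_mono).1 hrange
  refine Simp.ext hty (funext fun i => ?_)
  obtain ⟨j, hj⟩ := hmem i
  obtain rfl : j = i := s'.ty_mono.injective ((congrArg Prod.fst hj).trans (congrFun hty i))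
  exact (congrArg Prod.snd hj).symm

lemma exists_vset [Fact p.Prime] {σ : Finset (Vx p r)} {k : ℕ} (hσ : IsCell σ)
    (hk : σ.card = k) : ∃ s : Simp p r k, vset s = σ := by
  classical
  have hinj : Set.InjOn Prod.fst (σ : Set (Vx p r)) := fun u hu v hv h => (hσ.2 u hu v hv).1 h
  have hT : (σ.image Prod.fst).card = k := by rw [card_image_of_injOn hinj, hk]
  set e := (σ.image Prod.fst).orderEmbOfFin hT with he
  have hex : ∀ i, ∃ v ∈ σ, v.1 = e i := fun i =>
    mem_image.1 (orderEmbOfFin_mem _ hT i)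
  choose v hv hve using hex
  refine ⟨⟨fun i => e i, fun i => (v i).2, e.strictMono, fun i => ?_, fun i j hij => ?_,
    fun i j => ?_⟩, ?_⟩
  · have := hσ.1 _ (hv i)
    rwa [hve i] at this
  · rcases hij.eq_or_lt with rfl | hlt
    · exact le_rfl
    · exact ((hσ.2 _ (hv i) _ (hv j)).2 (by rw [hve, hve]; exact e.strictMono hlt)).1
  · have hst := IsLat.stable (hσ.1 _ (hv j))
    rcases lt_trichotomy i j with hlt | rfl | hgt
    · exact le_trans ((hσ.2 _ (hv i) _ (hv j)).2
        (by rw [hve, hve]; exact e.strictMono hlt)).1 hst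
    · exact hst
    · exact ((hσ.2 _ (hv j) _ (hv i)).2 (by rw [hve, hve]; exact e.strictMono hgt)).2
  · refine eq_of_subset_of_card_le (fun u hu => ?_) (by rw [card_vset, hk])
    obtain ⟨i, rfl⟩ := mem_vset.1 hu
    have : ((e i, (v i).2) : Vx p r) = v i := Prod.ext (hve i).symm rfl
    rw [this]
    exact hv i

lemma hHi_le_of_opp [Fact p.Prime] {L : Submodule (ZMod p) (M p)} {c : ℤ}
    (h : L ⊓ hi p c = ⊥) (m : ℤ) : (hHi p L m : ℤ) ≤ max 0 (c - m) := by
  by_cases hm : c ≤ m
  · have : L ⊓ hi p m = ⊥ := eq_bot_iff.2 (h ▸ inf_le_inf_left L (hi_anti hm))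
    rw [hHi, rk, this, Submodule.map_bot, finrank_bot]
    simp
  push Not at hm
  have hz : ∀ x ∈ L ⊓ hi p m, ((lo p m).mkQ x = 0 ↔ win p m c x = 0) := by
    intro x hx
    obtain ⟨hxL, hxh⟩ := Submodule.mem_inf.1 hx
    rw [Submodule.mkQ_apply, Submodule.Quotient.mk_eq_zero, win_eq_zero]
    constructor
    · intro hlo k hk _
      exact mem_lo.1 hlo k hk
    · intro hw
      have : x ∈ L ⊓ hi p c := ⟨hxL, mem_hi.2 fun k hk => by
        rcases lt_or_ge k m with hkm | hkm
        · exact mem_hi.1 hxh k hkm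
        · exact hw k hkm hk⟩
      rw [h, Submodule.mem_bot] at this
      subst this
      exact Submodule.zero_mem _
  rw [hHi, rk, finrank_map_congr _ _ _ hz]
  have := Submodule.finrank_le ((L ⊓ hi p m).map (win p m c))
  simp only [Module.finrank_fintype_fun_eq_card, Fintype.card_coe, Int.card_Ico] at this
  omega

lemma eq_bot_of_hHi [Fact p.Prime] {L : Submodule (ZMod p) (M p)} {n c : ℤ}
    (hL : IsLat p r L n) (h : hHi p L c = 0) : L ⊓ hi p c = ⊥ := by
  obtain ⟨a, b, -, -, hb⟩ := hL.bounds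
  have hzero : ∀ x ∈ L ⊓ hi p c, win p c b x = 0 → x = 0 := by
    intro x hx hw
    refine Finsupp.ext fun k => ?_
    rcases lt_or_ge k c with hk | hk
    · exact mem_hi.1 (Submodule.mem_inf.1 hx).2 k hk
    · rcases lt_or_ge k b with hk' | hk'
      · exact win_eq_zero.1 hw k hk hk'
      · exact mem_lo.1 (hb (Submodule.mem_inf.1 hx).1) k hk'
  have hz : ∀ x ∈ L ⊓ hi p c, ((lo p c).mkQ x = 0 ↔ win p c b x = 0) := by
    intro x hx
    rw [Submodule.mkQ_apply, Submodule.Quotient.mk_eq_zero]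
    constructor
    · intro hlo
      exact win_eq_zero.2 fun k hk _ => mem_lo.1 hlo k hk
    · intro hw
      rw [hzero x hx hw]
      exact Submodule.zero_mem _
  rw [hHi, rk, finrank_map_congr _ _ _ hz, Submodule.finrank_eq_zero] at h
  refine eq_bot_iff.2 fun x hx => (Submodule.mem_bot _).2 (hzero x hx ?_)
  have := Submodule.mem_map_of_mem (f := win p c b) hx
  rwa [h, Submodule.mem_bot] at this

lemma level_vset [Fact p.Prime] {k : ℕ} {s : Simp p r k} (hs : s.Opposite) :
    level (hHi p) (vset s) = 0 := by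
  have : covered (hHi p) (vset s) = ∅ := by
    refine Set.eq_empty_iff_forall_notMem.2 ?_
    rintro ⟨n, m, u⟩ ⟨v, hv, q, h1, h2⟩
    obtain ⟨i, rfl⟩ := mem_vset.1 hv
    have := hHi_le_of_opp (hs i) (m - (r : ℤ) * q)
    simp only [idx] at h2 h1
    omega
  simp [level, this]

lemma opposite_of_level [Fact p.Prime] [NeZero r] (H : IsHeight p r (hHi p)) {k : ℕ}
    {s : Simp p r k} (h0 : level (hHi p) (vset s) = 0) : s.Opposite := by
  intro i
  refine eq_bot_of_hHi (s.isLat i) ?_
  by_contra hne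
  have hcov : (((s.ty i : ℕ) : ℤ), ((s.ty i : ℕ) : ℤ), 1) ∈ covered (hHi p) (vset s) :=
    ⟨(s.ty i, s.lat i), mem_vset.2 ⟨i, rfl⟩, 0, by simp, by
      simp only [idx, mul_zero, add_zero, sub_self, sub_zero, max_self, Nat.cast_one]
      exact_mod_cast Nat.one_le_iff_ne_zero.2 hne⟩
  rw [covered_eq_empty H (isCell_vset s) h0] at hcov
  exact hcov

/-- The chains of the opposite complex as chains of sets of vertices. -/
noncomputable def toCells (p r k : ℕ) : (opp p r).Ch k →ₗ[ZMod 2] Ch (Vx p r) :=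
  Finsupp.lmapDomain (ZMod 2) (ZMod 2) fun s => vset s.1

lemma toCells_injective (k : ℕ) : Function.Injective (toCells p r k) :=
  Finsupp.mapDomain_injective fun _ _ h => Subtype.ext (vset_injective k h)

lemma toCells_bd (k : ℕ) (w : (opp p r).Ch (k + 1)) :
    toCells p r k ((opp p r).bd k w) = HDX.bd (toCells p r (k + 1) w) := by
  classical
  suffices h : (toCells p r k).comp ((opp p r).bd k) = HDX.bd.comp (toCells p r (k + 1)) from
    LinearMap.congr_fun h w
  refine Finsupp.lhom_ext fun s c => ?_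
  simp only [LinearMap.comp_apply, SS.bd, toCells, Finsupp.lmapDomain_apply,
    Finsupp.linearCombination_single, Finsupp.mapDomain_single, HDX.bd]
  rw [Finsupp.mapDomain_smul, Finsupp.mapDomain_finsetSum]
  congr 1
  rw [show vset s.1 = univ.image fun i => ((s.1.ty i, s.1.lat i) : Vx p r) from rfl,
    sum_image (fun _ _ _ _ h => vert_injective s.1 h)]
  refine sum_congr rfl fun i _ => ?_
  rw [Finsupp.mapDomain_single]
  congr 1
  exact vset_del s.1 i

theorem opp_acyclic_of_cells [Fact p.Prime] [NeZero r] (H : IsHeight p r (hHi p)) (n : ℕ)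
    (h : ∀ k ≤ n, ∀ z : Ch (Vx p r),
      Supp (fun σ => IsCell σ ∧ σ.card = k ∧ level (hHi p) σ = 0) z →
      HDX.bd z = 0 → ∃ w, Supp (fun σ => IsCell σ ∧ σ.card = k + 1 ∧ level (hHi p) σ = 0) w ∧
        HDX.bd w = z) :
    (opp p r).Acyclic n := by
  classical
  intro k hk z hz
  have hsupp : Supp (fun σ => IsCell σ ∧ σ.card = k ∧ level (hHi p) σ = 0) (toCells p r k z) := by
    intro σ hσ
    obtain ⟨s, -, rfl⟩ := mem_image.1 (Finsupp.mapDomain_support hσ)
    exact ⟨isCell_vset _, card_vset _, level_vset s.2⟩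
  have hbd : HDX.bd (toCells p r k z) = 0 := by
    match k, z, hz, hsupp with
    | 0, z, _, hsupp =>
      rw [HDX.bd, Finsupp.linearCombination_apply]
      refine sum_eq_zero fun σ hσ => ?_
      simp [card_eq_zero.1 (hsupp σ hσ).2.1]
    | k + 1, z, hz, _ =>
      rw [← toCells_bd, show (opp p r).bd k z = 0 from hz, map_zero]
  obtain ⟨w, hw, hwz⟩ := h k hk _ hsupp hbd
  have hrange : (w.support : Set (Finset (Vx p r))) ⊆
      Set.range fun s : (opp p r).X (k + 1) => vset s.1 := by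
    intro σ hσ
    obtain ⟨h1, h2, h3⟩ := hw σ hσ
    obtain ⟨s, rfl⟩ := exists_vset h1 h2
    exact ⟨⟨s, opposite_of_level H h3⟩, rfl⟩
  have hinj : Function.Injective fun s : (opp p r).X (k + 1) => vset s.1 :=
    fun _ _ h => Subtype.ext (vset_injective (k + 1) h)
  refine ⟨Finsupp.comapDomain _ w hinj.injOn, toCells_injective k ?_⟩
  rw [toCells_bd, toCells, Finsupp.lmapDomain_apply,
    Finsupp.mapDomain_comapDomain _ hinj w hrange, hwz]

end Vale.Agent.P067.Full.Acyc
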