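import Vale.Agent.P067.Full.Lattice
import Vale.Agent.HDX.Chain

/-!
Cells of the building as finite sets of typed lattices, and the filtration by coverage.

For a height function `h` (dimensions of a lattice against a flag) a vertex covers the triple
`(n, m, u)` if, among the members of the periodic chain, it forces a lattice of index `n` to
have height at least `u` at `m`, beyond the height of an opposite lattice. A vertex of a cell is
steep if it covers something that no other vertex covers. Deleting the others changes nothing.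
-/

namespace Vale.Agent.P067.Full.Acyc

open Finset Vale.Agent.HDX

variable (p r : ℕ)

/-- The rank of a subspace modulo `lo m`: the height against the flag `lo`. -/
noncomputable def rk (L : Submodule (ZMod p) (M p)) (m : ℤ) : ℕ :=
  Module.finrank (ZMod p) (L.map (lo p m).mkQ)

/-- The height against the flag `hi`: the dimension of `L ⊓ hi m`, which meets `lo m` in zero. -/
noncomputable def hHi (L : Submodule (ZMod p) (M p)) (m : ℤ) : ℕ :=
  rk p (L ⊓ hi p m) m

/-- A typed lattice. -/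
abbrev Vx : Type := Fin r × Submodule (ZMod p) (M p)

variable {p r}

/-- The index of a translate of a vertex. -/
def idx (v : Vx p r) (q : ℤ) : ℤ := ((v.1 : ℕ) : ℤ) + (r : ℤ) * q

/-- A translate of a vertex. -/
noncomputable def mem (v : Vx p r) (q : ℤ) : Submodule (ZMod p) (M p) :=
  v.2.map (tr p ((r : ℤ) * q)).toLinearMap

/-- Two vertices lie in a common periodic chain. -/
def Compat (u v : Vx p r) : Prop :=
  (u.1 = v.1 → u = v) ∧ (u.1 < v.1 → u.2 ≤ v.2 ∧ v.2 ≤ u.2.map (shift p r))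

/-- The cells: periodic chains. -/
def IsCell (σ : Finset (Vx p r)) : Prop :=
  (∀ v ∈ σ, IsLat p r v.2 ((v.1 : ℕ) : ℤ)) ∧ ∀ u ∈ σ, ∀ v ∈ σ, Compat u v

lemma IsCell.subset {σ τ : Finset (Vx p r)} (h : IsCell σ) (hτ : τ ⊆ σ) : IsCell τ :=
  ⟨fun v hv => h.1 v (hτ hv), fun u hu v hv => h.2 u (hτ hu) v (hτ hv)⟩

lemma isCell_empty : IsCell (∅ : Finset (Vx p r)) := by simp [IsCell]

variable (p r) in
/-- A height function against a flag. -/
structure IsHeight (h : Submodule (ZMod p) (M p) → ℤ → ℕ) : Prop where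
  mono : ∀ {L L' : Submodule (ZMod p) (M p)} {n n' : ℤ}, IsLat p r L n → IsLat p r L' n' →
    L ≤ L' → ∀ m, h L m ≤ h L' m
  le_top : ∀ {L : Submodule (ZMod p) (M p)} {b : ℤ}, L ≤ lo p b → ∀ m,
    (h L m : ℤ) ≤ max 0 (b - m)
  eq_low : ∀ {L : Submodule (ZMod p) (M p)} {n a m : ℤ}, IsLat p r L n → lo p a ≤ L → m ≤ a →
    (h L m : ℤ) = n - m
  map_tr : ∀ (L : Submodule (ZMod p) (M p)) (c m : ℤ),
    h (L.map (tr p c).toLinearMap) (m + c) = h L m
  step : ∀ {L L' : Submodule (ZMod p) (M p)} {n n' : ℤ}, IsLat p r L n → IsLat p r L' n' →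
    L ≤ L' → ∀ m, (h L' m : ℤ) ≤ h L m + (n' - n)
  ge : ∀ {L : Submodule (ZMod p) (M p)} {n : ℤ}, IsLat p r L n → ∀ m, n - m ≤ (h L m : ℤ)

/-- The translate `q` of `v` covers the triple. -/
def CovAt (h : Submodule (ZMod p) (M p) → ℤ → ℕ) (v : Vx p r) (q n m : ℤ) (u : ℕ) : Prop :=
  max 0 (n - m) < (u : ℤ) ∧ (u : ℤ) + max 0 (idx v q - n) ≤ (h v.2 (m - (r : ℤ) * q) : ℤ)

/-- The vertex covers the triple. -/
def Cov (h : Submodule (ZMod p) (M p) → ℤ → ℕ) (v : Vx p r) (n m : ℤ) (u : ℕ) : Prop :=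
  ∃ q, CovAt h v q n m u

/-- The triples covered by a cell. -/
def covered (h : Submodule (ZMod p) (M p) → ℤ → ℕ) (σ : Finset (Vx p r)) :
    Set (ℤ × ℤ × ℕ) :=
  { t | ∃ v ∈ σ, Cov h v t.1 t.2.1 t.2.2 }

/-- The level of a cell. -/
noncomputable def level (h : Submodule (ZMod p) (M p) → ℤ → ℕ) (σ : Finset (Vx p r)) : ℕ :=
  { t ∈ covered h σ | 0 ≤ t.1 ∧ t.1 < (r : ℤ) }.ncard

open Classical in
/-- The steep vertices. -/
noncomputable def steep (h : Submodule (ZMod p) (M p) → ℤ → ℕ) (σ : Finset (Vx p r)) :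
    Finset (Vx p r) :=
  σ.filter fun v => ∃ n m u, Cov h v n m u ∧ ∀ w ∈ σ, w ≠ v → ¬ Cov h w n m u

/-- A vertex can be added to the cell `b` without covering more. -/
def Good (h : Submodule (ZMod p) (M p) → ℤ → ℕ) (b : Finset (Vx p r)) (x : Vx p r) : Prop :=
  x ∉ b ∧ IsLat p r x.2 ((x.1 : ℕ) : ℤ) ∧ (∀ v ∈ b, Compat x v ∧ Compat v x) ∧
    ∀ n m u, Cov h x n m u → ∃ v ∈ b, Cov h v n m u

variable {h : Submodule (ZMod p) (M p) → ℤ → ℕ}

lemma covered_mono {σ τ : Finset (Vx p r)} (hτ : τ ⊆ σ) : covered h τ ⊆ covered h σ :=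
  fun _ ⟨v, hv, hc⟩ => ⟨v, hτ hv, hc⟩

lemma cov_add (v : Vx p r) (n m : ℤ) (u : ℕ) (k : ℤ) (hc : Cov h v n m u) :
    Cov h v (n + r * k) (m + r * k) u := by
  obtain ⟨q, h1, h2⟩ := hc
  refine ⟨q + k, by simpa using h1, ?_⟩
  rw [show m + r * k - (r : ℤ) * (q + k) = m - r * q by ring,
    show idx v (q + k) - (n + r * k) = idx v q - n by unfold idx; ring]
  exact h2

variable [Fact p.Prime] [NeZero r]

lemma finite_covAt (H : IsHeight p r h) {v : Vx p r} (hv : IsLat p r v.2 ((v.1 : ℕ) : ℤ))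
    (n m : ℤ) (u : ℕ) : {q | CovAt h v q n m u}.Finite := by
  obtain ⟨a, b, -, ha, hb⟩ := hv.bounds
  refine (Set.finite_Icc (-(|m| + |a| + |b|)) (|m| + |a| + |b|)).subset fun q ⟨h1, h2⟩ => ?_
  have hr : (1 : ℤ) ≤ r := by exact_mod_cast Nat.one_le_iff_ne_zero.mpr (NeZero.ne r)
  have e1 := H.le_top hb (m - r * q)
  have e0 : m - r * q < b := by omega
  have e2 : a < m - r * q := by
    by_contra hle
    have := H.eq_low hv ha (not_lt.mp hle)
    unfold idx at h2
    omega
  have := le_abs_self m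
  have := neg_abs_le m
  have := le_abs_self a
  have := neg_abs_le a
  have := le_abs_self b
  have := neg_abs_le b
  have := abs_nonneg m
  have := abs_nonneg a
  have := abs_nonneg b
  rcases le_or_gt 0 q with hq | hq
  · have : q ≤ r * q := le_mul_of_one_le_left hq hr
    exact ⟨by omega, by omega⟩
  · have : (r : ℤ) * q ≤ 1 * q := mul_le_mul_of_nonpos_right hr hq.le
    exact ⟨by omega, by omega⟩

omit [NeZero r] in
lemma finite_level (H : IsHeight p r h) {σ : Finset (Vx p r)} (hσ : IsCell σ) :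
    { t ∈ covered h σ | 0 ≤ t.1 ∧ t.1 < (r : ℤ) }.Finite := by
  have key : ∀ v ∈ σ, ∃ A B : ℤ, ∀ n m : ℤ, ∀ u : ℕ, 0 ≤ n → n < r → Cov h v n m u →
      A ≤ m ∧ m ≤ B ∧ (u : ℤ) ≤ B := by
    intro v hv
    obtain ⟨a, b, -, ha, hb⟩ := (hσ.1 v hv).bounds
    refine ⟨-(|a| + |b| + r) - (|a| + |b|), 2 * (|a| + |b| + r) + (|a| + |b|), ?_⟩
    intro n m u hn0 hn ⟨q, h1, h2⟩
    have e1 := H.le_top hb (m - r * q)
    have e2 : a < m - r * q := by
      by_contra hle
      have := H.eq_low (hσ.1 v hv) ha (not_lt.mp hle)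
      unfold idx at h2
      omega
    have := v.1.2
    have := le_abs_self a
    have := neg_abs_le a
    have := le_abs_self b
    have := neg_abs_le b
    unfold idx at h2
    omega
  choose! A B hAB using key
  refine ((Set.finite_Icc (0 : ℤ) r).prod (σ.finite_toSet.biUnion fun v _ =>
    (Set.finite_Icc (A v) (B v)).prod (Set.finite_Iic (B v).toNat))).subset ?_
  rintro ⟨n, m, u⟩ ⟨⟨v, hv, hc⟩, hn0, hn⟩
  obtain ⟨h1, h2, h3⟩ := hAB v hv n m u hn0 hn hc
  refine ⟨⟨hn0, hn.le⟩, Set.mem_biUnion hv ⟨⟨h1, h2⟩, ?_⟩⟩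
  change u ≤ (B v).toNat
  omega

omit [NeZero r] in
lemma level_mono (H : IsHeight p r h) {σ τ : Finset (Vx p r)} (hσ : IsCell σ) (hτ : τ ⊆ σ) :
    level h τ ≤ level h σ :=
  Set.ncard_le_ncard (fun _ ⟨h1, h2⟩ => ⟨covered_mono hτ h1, h2⟩) (finite_level H hσ)

/-- Every covered triple is covered by a steep vertex. -/
lemma covered_steep (H : IsHeight p r h) {σ : Finset (Vx p r)} (hσ : IsCell σ) :
    covered h (steep h σ) = covered h σ := by
  classical
  refine (covered_mono (Finset.filter_subset _ _)).antisymm ?_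
  rintro ⟨n, m, u⟩ ⟨v₀, hv₀, q₀, hq₀⟩
  set P : Set (Vx p r × ℤ) := {x | x.1 ∈ σ ∧ CovAt h x.1 x.2 n m u} with hP
  have hfin : P.Finite :=
    (σ.finite_toSet.biUnion fun v hv =>
      (Set.finite_singleton v).prod (finite_covAt H (hσ.1 v hv) n m u)).subset
      fun x ⟨h1, h2⟩ => Set.mem_biUnion h1 ⟨rfl, h2⟩
  have : (hfin.toFinset).Nonempty :=
    ⟨(v₀, q₀), hfin.mem_toFinset.mpr ⟨hv₀, hq₀⟩⟩
  obtain ⟨x, hx, hmax⟩ := Finset.exists_max_image hfin.toFinset
    (fun x => toLex (h x.1.2 (m - r * x.2), -idx x.1 x.2)) this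
  obtain ⟨hxσ, hxc⟩ := hfin.mem_toFinset.mp hx
  refine ⟨x.1, Finset.mem_filter.mpr ⟨hxσ, idx x.1 x.2, m, h x.1.2 (m - r * x.2),
    ⟨x.2, ?_⟩, ?_⟩, x.2, hxc⟩
  · obtain ⟨h1, h2⟩ := hxc
    exact ⟨by omega, by omega⟩
  intro w hw hne ⟨q, h1, h2⟩
  obtain ⟨hx1, hx2⟩ := hxc
  have hwc : CovAt h w q n m u := ⟨hx1, by omega⟩
  have hwP : (w, q) ∈ hfin.toFinset := hfin.mem_toFinset.mpr ⟨hw, hwc⟩
  have hle := hmax _ hwP
  rw [Prod.Lex.toLex_le_toLex] at hle
  simp only at hle
  have hne' : idx w q ≠ idx x.1 x.2 := by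
    intro he
    refine hne (((hσ.2 w hw x.1 hxσ).1) (Fin.ext ?_))
    have e := congrArg (· % (r : ℤ)) he
    simp only [idx, Int.add_mul_emod_self_left] at e
    rw [Int.emod_eq_of_lt (by omega) (by omega), Int.emod_eq_of_lt (by omega) (by omega)] at e
    exact_mod_cast e
  omega

omit [NeZero r] in
lemma steep_subset (h : Submodule (ZMod p) (M p) → ℤ → ℕ) (σ : Finset (Vx p r)) :
    steep h σ ⊆ σ := by
  classical
  exact Finset.filter_subset _ _

/-- Deleting a steep vertex lowers the level. -/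
lemma level_erase_lt (H : IsHeight p r h) {σ : Finset (Vx p r)} (hσ : IsCell σ) {v : Vx p r}
    (hv : v ∈ steep h σ) : level h (σ.erase v) < level h σ := by
  classical
  obtain ⟨hvσ, n, m, u, hc, honly⟩ := Finset.mem_filter.mp hv
  refine Set.ncard_lt_ncard ?_ (finite_level H hσ)
  have hsub : {t ∈ covered h (σ.erase v) | 0 ≤ t.1 ∧ t.1 < (r : ℤ)} ⊆
      {t ∈ covered h σ | 0 ≤ t.1 ∧ t.1 < (r : ℤ)} :=
    fun t ⟨h1, h2⟩ => ⟨covered_mono (Finset.erase_subset v σ) h1, h2⟩
  refine (Set.ssubset_iff_of_subset hsub).mpr ?_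
  have hr : (r : ℤ) ≠ 0 := by exact_mod_cast NeZero.ne r
  have hn : n + r * (-(n / r)) = n % r := by rw [Int.emod_def]; ring
  refine ⟨(n % r, m + r * (-(n / r)), u), ⟨⟨v, hvσ, hn ▸ cov_add v n m u _ hc⟩,
    Int.emod_nonneg n hr, Int.emod_lt_of_pos n (by omega)⟩, ?_⟩
  rintro ⟨⟨w, hw, hcw⟩, -⟩
  have hback := cov_add w _ _ u (n / r) hcw
  rw [Int.emod_add_mul_ediv, show m + r * (-(n / r)) + r * (n / r) = m by ring] at hback
  exact honly w (Finset.mem_of_mem_erase hw) (Finset.ne_of_mem_erase hw) hback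

/-- A cell between the steep part and the whole keeps the level and the steep part. -/
lemma steep_of_between (H : IsHeight p r h) {σ τ : Finset (Vx p r)} (hσ : IsCell σ)
    (h1 : steep h σ ⊆ τ) (h2 : τ ⊆ σ) :
    steep h τ = steep h σ ∧ level h τ = level h σ := by
  classical
  have hcov : covered h τ = covered h σ :=
    (covered_mono h2).antisymm (covered_steep H hσ ▸ covered_mono h1)
  refine ⟨?_, by unfold level; rw [hcov]⟩
  ext v
  simp only [steep, Finset.mem_filter]
  constructor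
  · rintro ⟨hv, n, m, u, hc, honly⟩
    have hmem : (n, m, u) ∈ covered h (steep h σ) := by
      rw [covered_steep H hσ]
      exact ⟨v, h2 hv, hc⟩
    obtain ⟨w, hw, hcw⟩ := hmem
    have hwv : w = v := by_contra fun hne => honly w (h1 hw) hne hcw
    subst hwv
    exact Finset.mem_filter.mp hw
  · rintro ⟨hv, n, m, u, hc, honly⟩
    exact ⟨h1 (Finset.mem_filter.mpr ⟨hv, n, m, u, hc, honly⟩), n, m, u, hc,
      fun w hw => honly w (h2 hw)⟩

/-- The vertices outside the steep part are good for it. -/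
lemma good_of_not_steep (H : IsHeight p r h) {σ : Finset (Vx p r)} (hσ : IsCell σ) {v : Vx p r}
    (hv : v ∈ σ) (hv' : v ∉ steep h σ) : Good h (steep h σ) v := by
  refine ⟨hv', hσ.1 v hv, fun w hw =>
    ⟨hσ.2 v hv w (steep_subset h σ hw), hσ.2 w (steep_subset h σ hw) v hv⟩, fun n m u hc => ?_⟩
  have hmem : (n, m, u) ∈ covered h (steep h σ) := by
    rw [covered_steep H hσ]
    exact ⟨v, hv, hc⟩
  exact hmem

/-- Adding good vertices to a steep cell keeps the steep part. -/
lemma steep_union (H : IsHeight p r h) {b τ : Finset (Vx p r)} (hb : steep h b = b)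
    (hτ : ∀ x ∈ τ, Good h b x) (hc : IsCell (b ∪ τ)) :
    steep h (b ∪ τ) = b ∧ level h (b ∪ τ) = level h b := by
  classical
  have hsub : steep h (b ∪ τ) ⊆ b := by
    intro v hv
    obtain ⟨hv', n, m, u, hcov, honly⟩ := Finset.mem_filter.mp hv
    by_contra hvb
    obtain ⟨w, hw, hcw⟩ := (hτ v ((Finset.mem_union.mp hv').resolve_left hvb)).2.2.2 n m u hcov
    exact honly w (Finset.mem_union_left _ hw) (fun he => hvb (he ▸ hw)) hcw
  have := steep_of_between H hc hsub Finset.subset_union_left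
  rw [hb] at this
  exact ⟨this.1.symm, this.2.symm⟩

/-- Cells of level zero cover nothing. -/
lemma covered_eq_empty (H : IsHeight p r h) {σ : Finset (Vx p r)} (hσ : IsCell σ)
    (h0 : level h σ = 0) : covered h σ = ∅ := by
  rw [level, Set.ncard_eq_zero (finite_level H hσ)] at h0
  refine Set.eq_empty_iff_forall_notMem.mpr ?_
  rintro ⟨n, m, u⟩ ⟨v, hv, hc⟩
  have hr : (r : ℤ) ≠ 0 := by exact_mod_cast NeZero.ne r
  refine Set.notMem_empty (n % r, m + r * (-(n / r)), u) (h0 ▸ ⟨⟨v, hv, ?_⟩,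
    Int.emod_nonneg n hr, Int.emod_lt_of_pos n (by omega)⟩)
  rw [show n % (r : ℤ) = n + r * (-(n / r)) by rw [Int.emod_def]; ring]
  exact cov_add v n m u _ hc

open Classical in
/-- The contracting step: if over each steep part the flat boundary is contracted, a cycle
supported at level `L` moves below. -/
lemma push_down (H : IsHeight p r h) {c L : ℕ}
    (Hom : Finset (Vx p r) → Ch (Vx p r))
    (hsupp : ∀ σ, IsCell σ → σ.card ≤ c → level h σ = L →
      Supp (fun τ => IsCell τ ∧ τ.card = σ.card + 1 ∧ level h τ = L) (Hom σ))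
    (hhom : ∀ σ, IsCell σ → σ.card ≤ c → level h σ = L →
      (bd (Hom σ)).filter (fun τ => level h τ = L) = Finsupp.single σ 1 +
        ∑ x ∈ σ.filter (fun x => level h (σ.erase x) = L), Hom (σ.erase x))
    {k : ℕ} {z : Ch (Vx p r)} (hk : k ≤ c)
    (hz : Supp (fun σ => IsCell σ ∧ σ.card = k ∧ level h σ ≤ L) z)
    (hbd : Supp (fun σ => level h σ < L) (bd z)) :
    ∃ w, Supp (fun σ => IsCell σ ∧ σ.card = k + 1 ∧ level h σ ≤ L) w ∧
      Supp (fun σ => IsCell σ ∧ σ.card = k ∧ level h σ < L) (z + bd w) := by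
  set P : Finset (Vx p r) → Prop := fun τ => level h τ = L with hP
  set zL := z.filter P with hzL
  set T : Ch (Vx p r) →ₗ[ZMod 2] Ch (Vx p r) := Finsupp.linearCombination (ZMod 2) Hom with hT
  have hzLs : ∀ σ ∈ zL.support, IsCell σ ∧ σ.card = k ∧ level h σ = L := by
    intro σ hσ
    rw [hzL, Finsupp.support_filter, Finset.mem_filter] at hσ
    exact ⟨(hz σ hσ.1).1, (hz σ hσ.1).2.1, hσ.2⟩
  have hw : Supp (fun τ => IsCell τ ∧ τ.card = k + 1 ∧ level h τ = L) (T zL) := by
    rw [hT, Finsupp.linearCombination_apply]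
    refine Supp.sum fun σ hσ => Supp.smul ?_ _
    obtain ⟨h1, h2, h3⟩ := hzLs σ hσ
    exact (hsupp σ h1 (by omega) h3).mono fun τ ⟨a, b, c⟩ => ⟨a, by omega, c⟩
  have hbdle : Supp (fun τ => IsCell τ ∧ τ.card = k ∧ level h τ ≤ L) (bd (T zL)) := by
    intro τ hτ
    rw [bd, Finsupp.linearCombination_apply] at hτ
    obtain ⟨σ, hσ, hτσ⟩ := Finset.mem_biUnion.mp (Finsupp.support_finsetSum hτ)
    obtain ⟨x, hx, hτx⟩ := Finset.mem_biUnion.mp
      (Finsupp.support_finsetSum (Finsupp.support_smul hτσ))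
    obtain rfl := Finset.mem_singleton.mp (Finsupp.support_single_subset hτx)
    obtain ⟨h1, h2, h3⟩ := hw σ hσ
    exact ⟨h1.subset (Finset.erase_subset _ _), by rw [Finset.card_erase_of_mem hx]; omega,
      h3 ▸ level_mono H h1 (Finset.erase_subset _ _)⟩
  refine ⟨T zL, hw.mono fun τ ⟨a, b, c⟩ => ⟨a, b, c.le⟩, fun τ hτ => ?_⟩
  obtain ⟨h1, h2, h3⟩ := (hz.add hbdle) τ hτ
  refine ⟨h1, h2, lt_of_le_of_ne h3 fun hL => ?_⟩
  -- the part at level `L` cancels
  let F : Ch (Vx p r) →ₗ[ZMod 2] Ch (Vx p r) :=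
    { toFun := fun y => y.filter P
      map_add' := fun _ _ => Finsupp.filter_add
      map_smul' := fun _ _ => Finsupp.filter_smul }
  have hF : ∀ y, F y = y.filter P := fun _ => rfl
  have hmain : F (bd (T zL)) = zL + T (F (bd zL)) := by
    have hz' : zL = ∑ σ ∈ zL.support, zL σ • Finsupp.single σ (1 : ZMod 2) := by
      conv_lhs => rw [← Finsupp.sum_single zL]
      simp [Finsupp.sum]
    conv_lhs => rw [hz']
    conv_rhs => rw [hz']
    simp only [map_sum, map_smul, ← Finset.sum_add_distrib, ← smul_add]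
    refine Finset.sum_congr rfl fun σ hσ => congrArg (zL σ • ·) ?_
    obtain ⟨h1, h2, h3⟩ := hzLs σ hσ
    rw [hT, Finsupp.linearCombination_single, one_smul, hF, hhom σ h1 (by omega) h3, ← hT]
    congr 1
    rw [bd_single, map_sum, map_sum, Finset.sum_filter]
    refine Finset.sum_congr rfl fun x _ => ?_
    rw [hF]
    by_cases hx : level h (σ.erase x) = L
    · rw [Finsupp.filter_single_of_pos _ (show P (σ.erase x) from hx), if_pos hx, hT,
        Finsupp.linearCombination_single, one_smul]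
    · rw [Finsupp.filter_single_of_neg _ (show ¬ P (σ.erase x) from hx), if_neg hx, map_zero]
  have hzero : F (bd zL) = 0 := by
    have h0 : F (bd z) = 0 := by
      rw [hF, Finsupp.filter_eq_zero_iff]
      intro σ hσ
      by_contra hne
      exact (hbd σ (Finsupp.mem_support_iff.mpr hne)).ne hσ
    have hlow : F (bd (z.filter fun σ => ¬ P σ)) = 0 := by
      rw [hF, Finsupp.filter_eq_zero_iff]
      intro σ hσ
      by_contra hne
      have hmem : σ ∈ (bd (z.filter fun σ => ¬ P σ)).support := Finsupp.mem_support_iff.mpr hne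
      rw [bd, Finsupp.linearCombination_apply] at hmem
      obtain ⟨τ, hτ, hστ⟩ := Finset.mem_biUnion.mp (Finsupp.support_finsetSum hmem)
      obtain ⟨x, hx, hσx⟩ := Finset.mem_biUnion.mp
        (Finsupp.support_finsetSum (Finsupp.support_smul hστ))
      obtain rfl := Finset.mem_singleton.mp (Finsupp.support_single_subset hσx)
      rw [Finsupp.support_filter, Finset.mem_filter] at hτ
      obtain ⟨⟨t1, t2, t3⟩, t4⟩ := And.intro (hz τ hτ.1) hτ.2
      have := level_mono H t1 (Finset.erase_subset x τ)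
      simp only [hP] at t4 hσ
      omega
    have hsplit : z = zL + z.filter fun σ => ¬ P σ := (Finsupp.filter_add_filter_not z P).symm
    rw [hsplit, map_add, map_add, hlow, add_zero] at h0
    exact h0
  have : (z + bd (T zL)).filter P = 0 := by
    rw [← hF, map_add, hmain, hzero, map_zero, add_zero, hF, ← hzL, ZModModule.add_self]
  rw [Finsupp.filter_eq_zero_iff] at this
  exact (Finsupp.mem_support_iff.mp hτ) (this τ hL)

end Vale.Agent.P067.Full.Acyc
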