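import Vale.Agent.P067.Full.Acyc.Cell

/-!
The two heights satisfy the height axioms: the rank modulo `lo m`, and the dimension of the meet
with `hi m`. Both are computed inside a finite window of coordinates.
-/

namespace Vale.Agent.P067.Full.Acyc

open Submodule

variable {p r : ℕ}

/-- The rank modulo `lo m` of a subspace of `lo b` is read in the window `[m, b)`. -/
lemma rk_eq_win {L : Submodule (ZMod p) (M p)} {m b : ℤ} [Fact p.Prime] (hb : L ≤ lo p b) :
    rk p L m = Module.finrank (ZMod p) (L.map (win p m b)) :=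
  finrank_map_congr L _ _ fun _ hx => mkQ_lo_ker_eq (hb hx)

variable [Fact p.Prime]

/-- In a window `[a, b)` with `a ≤ m` the rank splits off the part inside `lo m`. -/
lemma win_split {L : Submodule (ZMod p) (M p)} {a m b : ℤ} (ham : a ≤ m) (hb : L ≤ lo p b) :
    Module.finrank (ZMod p) (L.map (win p a b)) =
      rk p L m + Module.finrank (ZMod p) ((L ⊓ lo p m).map (win p a b)) := by
  set res : (Finset.Ico a b → ZMod p) →ₗ[ZMod p] (Finset.Ico m b → ZMod p) :=
    LinearMap.funLeft (ZMod p) (ZMod p) fun k =>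
      ⟨k, Finset.mem_Ico.2 ⟨ham.trans (Finset.mem_Ico.1 k.2).1, (Finset.mem_Ico.1 k.2).2⟩⟩
    with hres
  have hcomp : res.comp (win p a b) = win p m b := by
    ext x k
    simp [hres, win, LinearMap.funLeft]
  have hker : L.map (win p a b) ⊓ LinearMap.ker res = (L ⊓ lo p m).map (win p a b) := by
    refine le_antisymm ?_ ?_
    · rintro _ ⟨⟨x, hx, rfl⟩, h0⟩
      rw [SetLike.mem_coe, LinearMap.mem_ker, ← LinearMap.comp_apply, hcomp] at h0
      exact Submodule.mem_map_of_mem ⟨hx, (win_ker_eq (hb hx)).1 h0⟩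
    · rintro _ ⟨x, ⟨hx, hm⟩, rfl⟩
      refine ⟨Submodule.mem_map_of_mem hx, ?_⟩
      rw [SetLike.mem_coe, LinearMap.mem_ker, ← LinearMap.comp_apply, hcomp]
      exact (win_ker_eq (hb hx)).2 hm
  have e := (res.comp (L.map (win p a b)).subtype).finrank_range_add_finrank_ker
  rw [LinearMap.range_comp, Submodule.range_subtype, LinearMap.ker_comp, ← Submodule.map_comp,
    hcomp] at e
  have e' : (LinearMap.ker res).comap (L.map (win p a b)).subtype =
      (L.map (win p a b) ⊓ LinearMap.ker res).comap (L.map (win p a b)).subtype := by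
    rw [Submodule.comap_inf, Submodule.comap_subtype_self, top_inf_eq]
  rw [e', (Submodule.comapSubtypeEquivOfLe (inf_le_left :
    L.map (win p a b) ⊓ LinearMap.ker res ≤ L.map (win p a b))).finrank_eq, hker] at e
  rw [rk_eq_win hb]
  exact e.symm

lemma rk_mono {L L' : Submodule (ZMod p) (M p)} {b : ℤ} (hb : L' ≤ lo p b) (h : L ≤ L') (m : ℤ) :
    rk p L m ≤ rk p L' m := by
  rw [rk_eq_win (h.trans hb), rk_eq_win hb]
  exact Submodule.finrank_mono (Submodule.map_mono h)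

lemma rk_le_top {L : Submodule (ZMod p) (M p)} {b : ℤ} (hb : L ≤ lo p b) (m : ℤ) :
    (rk p L m : ℤ) ≤ max 0 (b - m) := by
  rw [rk_eq_win hb]
  have := Submodule.finrank_le (L.map (win p m b))
  rw [Module.finrank_fintype_fun_eq_card, Fintype.card_coe, Int.card_Ico] at this
  omega

lemma rk_eq_low {L : Submodule (ZMod p) (M p)} {n a m : ℤ} (h : IsLat p r L n)
    (ha : lo p a ≤ L) (hm : m ≤ a) : (rk p L m : ℤ) = n - m := by
  obtain ⟨-, b, -, -, hb⟩ := h.bounds
  rw [rk_eq_win hb]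
  exact h.finrank_win ((lo_mono hm).trans ha) hb

lemma rk_map_tr (L : Submodule (ZMod p) (M p)) (c m : ℤ) :
    rk p (L.map (tr p c).toLinearMap) (m + c) = rk p L m := by
  rw [rk, rk, ← Submodule.map_comp]
  refine finrank_map_congr L _ _ fun x _ => ?_
  simp only [LinearMap.comp_apply, Submodule.mkQ_apply, Submodule.Quotient.mk_eq_zero,
    LinearEquiv.coe_coe, ← map_tr_lo]
  rw [Submodule.mem_map_equiv, LinearEquiv.symm_apply_apply]

/-- The growth of the rank between nested lattices, with equality if nothing is added below. -/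
lemma rk_step_eq {L L' : Submodule (ZMod p) (M p)} {n n' : ℤ} (h : IsLat p r L n)
    (h' : IsLat p r L' n') (hle : L ≤ L') (m : ℤ) :
    (rk p L' m : ℤ) ≤ rk p L m + (n' - n) ∧
      (L' ⊓ lo p m ≤ L → (rk p L' m : ℤ) = rk p L m + (n' - n)) := by
  obtain ⟨a₀, b, ha₀, hb, ha₀', hb'⟩ := h.common h'
  obtain ⟨a, haa, ham⟩ : ∃ a, a ≤ a₀ ∧ a ≤ m := ⟨min a₀ m, min_le_left _ _, min_le_right _ _⟩
  have ha : lo p a ≤ lo p a₀ := lo_mono haa
  have e := h.finrank_win (ha.trans ha₀) hb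
  have e' := h'.finrank_win (ha.trans ha₀') hb'
  rw [win_split ham hb] at e
  rw [win_split ham hb'] at e'
  push_cast at e e'
  refine ⟨?_, fun hlow => ?_⟩
  · have := Submodule.finrank_mono (Submodule.map_mono (f := win p a b)
      (inf_le_inf_right (lo p m) hle))
    omega
  · rw [show L' ⊓ lo p m = L ⊓ lo p m from
      le_antisymm (le_inf hlow inf_le_right) (inf_le_inf_right _ hle)] at e'
    omega

lemma rk_eq_add {L L' : Submodule (ZMod p) (M p)} {n n' m : ℤ} (h : IsLat p r L n)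
    (h' : IsLat p r L' n') (hle : L ≤ L') (hlow : L' ⊓ lo p m ≤ L) :
    (rk p L' m : ℤ) = rk p L m + (n' - n) :=
  (rk_step_eq h h' hle m).2 hlow

/-- The height against `hi` is the dimension of a meet inside a window. -/
lemma hHi_eq_win {L : Submodule (ZMod p) (M p)} {a m b : ℤ} (ha : lo p a ≤ L) (hb : L ≤ lo p b)
    (ham : a ≤ m) :
    hHi p L m = Module.finrank (ZMod p)
      ↥(L.map (win p a b) ⊓ (hi p m ⊓ lo p b).map (win p a b)) := by
  have hb' : L ⊓ hi p m ≤ lo p b := inf_le_left.trans hb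
  have hbot : (L ⊓ hi p m) ⊓ lo p m = ⊥ :=
    le_bot_iff.1 fun x hx => lo_inf_hi (p := p) m ▸ ⟨hx.2, hx.1.2⟩
  have e := win_split ham hb'
  rw [hbot, Submodule.map_bot, finrank_bot, add_zero] at e
  rw [hHi, ← e]
  suffices he : (L ⊓ hi p m).map (win p a b) =
      L.map (win p a b) ⊓ (hi p m ⊓ lo p b).map (win p a b) by rw [he]
  refine le_antisymm ?_ ?_
  · rintro _ ⟨x, ⟨hx, hm⟩, rfl⟩
    exact ⟨Submodule.mem_map_of_mem hx, Submodule.mem_map_of_mem ⟨hm, hb hx⟩⟩
  · rintro _ ⟨⟨x, hx, rfl⟩, y, ⟨hy, hyb⟩, hxy⟩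
    have h0 : y - x ∈ lo p a :=
      (win_ker_eq (Submodule.sub_mem _ hyb (hb hx))).1 (by rw [map_sub, hxy, sub_self])
    exact ⟨y, ⟨by simpa using L.add_mem (ha h0) hx, hy⟩, hxy⟩

lemma finrank_win_hi {a m b : ℤ} (ham : a ≤ m) (hmb : m ≤ b) :
    (Module.finrank (ZMod p) ((hi p m ⊓ lo p b).map (win p a b)) : ℤ) = b - m := by
  have hbot : (hi p m ⊓ lo p b) ⊓ lo p m = ⊥ :=
    le_bot_iff.1 fun x hx => lo_inf_hi (p := p) m ▸ ⟨hx.2, hx.1.1⟩
  rw [win_split ham inf_le_right, hbot, Submodule.map_bot, finrank_bot, add_zero,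
    rk_eq_win inf_le_right]
  have htop : (hi p m ⊓ lo p b).map (win p m b) = ⊤ := by
    refine eq_top_iff.2 fun f _ => ?_
    obtain ⟨x, hx, rfl⟩ := exists_win f
    exact Submodule.mem_map_of_mem ⟨Finsupp.supported_mono Set.Ico_subset_Ici_self hx,
      Finsupp.supported_mono Set.Ico_subset_Iio_self hx⟩
  rw [htop, finrank_top, Module.finrank_fintype_fun_eq_card, Fintype.card_coe, Int.card_Ico]
  omega

lemma hHi_eq_low {L : Submodule (ZMod p) (M p)} {n a m : ℤ} (h : IsLat p r L n)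
    (ha : lo p a ≤ L) (hm : m ≤ a) : (hHi p L m : ℤ) = n - m := by
  have e : (L ⊓ hi p m).map (lo p m).mkQ = L.map (lo p m).mkQ := by
    refine le_antisymm (Submodule.map_mono inf_le_left) ?_
    rintro _ ⟨x, hx, rfl⟩
    obtain ⟨l, hl, g, hg, rfl⟩ := Submodule.mem_sup.1
      (lo_sup_hi (p := p) m ▸ Submodule.mem_top : x ∈ lo p m ⊔ hi p m)
    refine ⟨g, ⟨by simpa using L.sub_mem hx (ha (lo_mono hm hl)), hg⟩, ?_⟩
    rw [map_add, Submodule.mkQ_apply (lo p m) l, (Submodule.Quotient.mk_eq_zero _).2 hl, zero_add]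
  rw [← rk_eq_low h ha hm, hHi, rk, rk, e]

lemma hHi_map_tr (L : Submodule (ZMod p) (M p)) (c m : ℤ) :
    hHi p (L.map (tr p c).toLinearMap) (m + c) = hHi p L m := by
  rw [hHi, hHi, ← map_tr_hi, ← map_tr_inf, rk_map_tr]

lemma hHi_step {L L' : Submodule (ZMod p) (M p)} {n n' : ℤ} (h : IsLat p r L n)
    (h' : IsLat p r L' n') (hle : L ≤ L') (m : ℤ) :
    (hHi p L' m : ℤ) ≤ hHi p L m + (n' - n) := by
  obtain ⟨a₀, b, ha₀, hb, ha₀', hb'⟩ := h.common h'
  obtain ⟨a, haa, ham⟩ : ∃ a, a ≤ a₀ ∧ a ≤ m := ⟨min a₀ m, min_le_left _ _, min_le_right _ _⟩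
  have ha : lo p a ≤ lo p a₀ := lo_mono haa
  rw [hHi_eq_win (ha.trans ha₀) hb ham, hHi_eq_win (ha.trans ha₀') hb' ham]
  have e := h.finrank_win (ha.trans ha₀) hb
  have e' := h'.finrank_win (ha.trans ha₀') hb'
  set S := L.map (win p a b)
  set S' := L'.map (win p a b)
  set H := (hi p m ⊓ lo p b).map (win p a b)
  have hS : S ≤ S' := Submodule.map_mono hle
  have h1 := Submodule.finrank_sup_add_finrank_inf_eq S (S' ⊓ H)
  rw [← inf_assoc, inf_eq_left.2 hS] at h1
  have h2 := Submodule.finrank_mono (sup_le hS (inf_le_left : S' ⊓ H ≤ S'))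
  omega

lemma hHi_ge {L : Submodule (ZMod p) (M p)} {n : ℤ} (h : IsLat p r L n) (m : ℤ) :
    n - m ≤ (hHi p L m : ℤ) := by
  obtain ⟨a₀, b₀, -, ha₀, hb₀⟩ := h.bounds
  have ha : lo p (min a₀ m) ≤ L := (lo_mono (min_le_left _ _)).trans ha₀
  have hb : L ≤ lo p (max b₀ m) := hb₀.trans (lo_mono (le_max_left _ _))
  rw [hHi_eq_win ha hb (min_le_right a₀ m)]
  have e := h.finrank_win ha hb
  have e' := finrank_win_hi (p := p) (min_le_right a₀ m) (le_max_right b₀ m)
  have h1 := Submodule.finrank_sup_add_finrank_inf_eq (L.map (win p (min a₀ m) (max b₀ m)))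
    ((hi p m ⊓ lo p (max b₀ m)).map (win p (min a₀ m) (max b₀ m)))
  have h2 := Submodule.finrank_le (L.map (win p (min a₀ m) (max b₀ m)) ⊔
    (hi p m ⊓ lo p (max b₀ m)).map (win p (min a₀ m) (max b₀ m)))
  rw [Module.finrank_fintype_fun_eq_card, Fintype.card_coe, Int.card_Ico] at h2
  omega

lemma rk_ge {L : Submodule (ZMod p) (M p)} {n : ℤ} (h : IsLat p r L n) (m : ℤ) :
    n - m ≤ (rk p L m : ℤ) := by
  obtain ⟨-, b, -, -, hb⟩ := h.bounds
  exact (hHi_ge h m).trans (Int.ofNat_le.2 (rk_mono hb inf_le_left m))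

theorem isHeight_rk : IsHeight p r (rk p) where
  mono := fun {_ _ _ _} _ h' hle m => by
    obtain ⟨-, b, -, -, hb⟩ := h'.bounds
    exact rk_mono hb hle m
  le_top := rk_le_top
  eq_low := rk_eq_low
  map_tr := rk_map_tr
  step := fun h h' hle m => (rk_step_eq h h' hle m).1
  ge := rk_ge

lemma hHi_mono {L L' : Submodule (ZMod p) (M p)} {b : ℤ} (hb : L' ≤ lo p b) (h : L ≤ L') (m : ℤ) :
    hHi p L m ≤ hHi p L' m :=
  rk_mono (L := L ⊓ hi p m) (L' := L' ⊓ hi p m) (inf_le_left.trans hb)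
    (inf_le_inf_right (hi p m) h) m

lemma hHi_le_top {L : Submodule (ZMod p) (M p)} {b : ℤ} (hb : L ≤ lo p b) (m : ℤ) :
    (hHi p L m : ℤ) ≤ max 0 (b - m) :=
  rk_le_top (L := L ⊓ hi p m) (inf_le_left.trans hb) m

theorem isHeight_hHi : IsHeight p r (hHi p) where
  mono := fun {_ _ _ _} _ h' hle m => by
    obtain ⟨-, b, -, -, hb⟩ := h'.bounds
    exact hHi_mono hb hle m
  le_top := hHi_le_top
  eq_low := hHi_eq_low
  map_tr := hHi_map_tr
  step := hHi_step
  ge := hHi_ge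

end Vale.Agent.P067.Full.Acyc
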