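import Vale.Agent.P067.Full.Finite

/-!
A flag with respect to which the generic refinements of a chain of subspaces are the opposite ones.

Given a chain and a filtration `T` with steps of dimension at most one, a subspace is generic if
at every stage of `T` its dimension is dominated by a member of the chain. We build a complete
flag, opposite to the chain, such that generic means opposite.
-/

namespace Vale.Agent.P067.Full.Acyc

open Finset Submodule

variable {K : Type} [Field K] {b : ℕ}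

/-- Nested complements of the members of a chain. -/
lemma exists_nested_compl (s : Finset (Submodule K (Fin b → K)))
    (hs : ∀ U ∈ s, ∀ U' ∈ s, U ≤ U' ∨ U' ≤ U) :
    ∃ F : Submodule K (Fin b → K) → Submodule K (Fin b → K),
      (∀ U ∈ s, IsCompl U (F U)) ∧ ∀ U ∈ s, ∀ U' ∈ s, U ≤ U' → F U' ≤ F U := by
  classical
  induction hn : s.card generalizing s with
  | zero => exact ⟨fun _ => ⊥, by simp [Finset.card_eq_zero.1 hn]⟩
  | succ n ih =>
    obtain ⟨U₀, h₀, hmin⟩ := Finset.exists_min_image s (fun U => Module.finrank K U)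
      (Finset.card_pos.1 (by omega))
    have hle : ∀ U ∈ s, U₀ ≤ U := fun U hU => (hs U₀ h₀ U hU).elim id fun h =>
      (Submodule.eq_of_le_of_finrank_le h (hmin U hU)).ge
    obtain ⟨F, hF, hanti⟩ := ih (s.erase U₀)
      (fun U hU U' hU' => hs U (Finset.mem_of_mem_erase hU) U' (Finset.mem_of_mem_erase hU'))
      (by rw [Finset.card_erase_of_mem h₀]; omega)
    obtain ⟨S, hS, hSle⟩ : ∃ S, Disjoint U₀ S ∧ ∀ U ∈ s.erase U₀, F U ≤ S := by
      rcases (s.erase U₀).eq_empty_or_nonempty with he | hne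
      · exact ⟨⊥, disjoint_bot_right, by simp [he]⟩
      · obtain ⟨U₁, h₁, hmin₁⟩ :=
          Finset.exists_min_image (s.erase U₀) (fun U => Module.finrank K U) hne
        refine ⟨F U₁, (hF U₁ h₁).disjoint.mono_left (hle U₁ (Finset.mem_of_mem_erase h₁)),
          fun U hU => hanti U₁ h₁ U hU ?_⟩
        exact (hs U₁ (Finset.mem_of_mem_erase h₁) U (Finset.mem_of_mem_erase hU)).elim id fun h =>
          (Submodule.eq_of_le_of_finrank_le h (hmin₁ U hU)).ge
    obtain ⟨S', hS', hcompl⟩ := hS.symm.exists_isCompl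
    refine ⟨Function.update F U₀ S', fun U hU => ?_, fun U hU U' hU' h => ?_⟩
    · by_cases e : U = U₀
      · subst e
        rw [Function.update_self]
        exact hcompl.symm
      · rw [Function.update_of_ne e]
        exact hF U (Finset.mem_erase.2 ⟨e, hU⟩)
    · by_cases e' : U' = U₀
      · subst e'
        rw [le_antisymm h (hle U hU)]
      · rw [Function.update_of_ne e']
        have hU'' := Finset.mem_erase.2 ⟨e', hU'⟩
        by_cases e : U = U₀
        · subst e
          rw [Function.update_self]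
          exact (hSle U' hU'').trans hS'
        · rw [Function.update_of_ne e]
          exact hanti U (Finset.mem_erase.2 ⟨e, hU⟩) U' hU'' h

/-- Dominated at every stage of the filtration by a member of `s`. -/
def Generic (T : ℤ → Submodule K (Fin b → K)) (s : Finset (Submodule K (Fin b → K)))
    (W : Submodule K (Fin b → K)) : Prop :=
  ∀ m, ∃ U ∈ s, (Module.finrank K ↥(W ⊓ T m) : ℤ) +
    max 0 ((Module.finrank K U : ℤ) - Module.finrank K W) ≤ Module.finrank K ↥(U ⊓ T m)

open Classical in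
/-- The flag. -/
theorem exists_flag (T : ℤ → Submodule K (Fin b → K)) (hT : Antitone T)
    (hlow : ∃ a, T a = ⊤) (hhigh : ∃ a, T a = ⊥)
    (hstep : ∀ m, Module.finrank K (T m) ≤ Module.finrank K (T (m + 1)) + 1)
    (β : Finset (Submodule K (Fin b → K)))
    (hne : ∀ W ∈ β, W ≠ ⊥ ∧ W ≠ ⊤) (hch : ∀ W ∈ β, ∀ W' ∈ β, W ≤ W' ∨ W' ≤ W) :
    ∃ Fl : ℕ → Submodule K (Fin b → K), IsCompleteFlag Fl ∧ IsOppChain Fl β ∧
      ∀ W, (∀ U ∈ β, (W ≤ U ∨ U ≤ W) ∧ Module.finrank K U ≠ Module.finrank K W) →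
        W ≠ ⊥ → W ≠ ⊤ →
        (W ⊓ Fl (Module.finrank K W) = ⊥ ↔ Generic T (insert ⊥ (insert ⊤ β)) W) := by
  set d : Submodule K (Fin b → K) → ℕ := fun W => Module.finrank K W with hd
  set s := insert ⊥ (insert ⊤ β) with hs
  have hbots : (⊥ : Submodule K (Fin b → K)) ∈ s := Finset.mem_insert_self _ _
  have htops : (⊤ : Submodule K (Fin b → K)) ∈ s :=
    Finset.mem_insert_of_mem (Finset.mem_insert_self _ _)
  have hsch : ∀ U ∈ s, ∀ U' ∈ s, U ≤ U' ∨ U' ≤ U := by
    intro U hU U' hU'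
    simp only [hs, Finset.mem_insert] at hU hU'
    rcases hU with rfl | rfl | hU
    · exact Or.inl bot_le
    · exact Or.inr le_top
    · rcases hU' with rfl | rfl | hU'
      · exact Or.inr bot_le
      · exact Or.inl le_top
      · exact hch U hU U' hU'
  have hle : ∀ {U U'}, U ∈ s → U' ∈ s → d U ≤ d U' → U ≤ U' := fun {U U'} hU hU' h =>
    (hsch U hU U' hU').elim id fun h' => (Submodule.eq_of_le_of_finrank_le h' h).ge
  have hdtop : d ⊤ = b := by simp [hd]
  have hdle : ∀ U, d U ≤ b := fun U => (Submodule.finrank_le U).trans (by simp)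
  obtain ⟨F, hF, hFanti⟩ := exists_nested_compl s hsch
  -- the neighbours of a dimension
  have hA : ∀ i, ∃ A ∈ s, d A ≤ i ∧ ∀ U ∈ s, d U ≤ i → d U ≤ d A := fun i => by
    obtain ⟨A, hA, hmax⟩ := Finset.exists_max_image (s.filter fun U => d U ≤ i) d
      ⟨⊥, Finset.mem_filter.2 ⟨hbots, by simp [hd]⟩⟩
    obtain ⟨hA1, hA2⟩ := Finset.mem_filter.1 hA
    exact ⟨A, hA1, hA2, fun U hU h => hmax U (Finset.mem_filter.2 ⟨hU, h⟩)⟩
  choose A hAs hAi hAmax using hA
  have hB : ∀ i, ∃ B ∈ s, (i ≤ b → i ≤ d B) ∧ ∀ U ∈ s, i ≤ d U → d B ≤ d U := fun i => by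
    by_cases hi : i ≤ b
    · obtain ⟨B, hB, hmin⟩ := Finset.exists_min_image (s.filter fun U => i ≤ d U) d
        ⟨⊤, Finset.mem_filter.2 ⟨htops, by rw [hdtop]; exact hi⟩⟩
      obtain ⟨hB1, hB2⟩ := Finset.mem_filter.1 hB
      exact ⟨B, hB1, fun _ => hB2, fun U hU h => hmin U (Finset.mem_filter.2 ⟨hU, h⟩)⟩
    · exact ⟨⊤, htops, fun h => absurd h hi, fun U _ h => absurd (h.trans (hdle U)) hi⟩
  choose B hBs hBi hBmin using hB
  set D : ℕ → ℤ → ℤ := fun i m => (d (B i ⊓ T m) : ℤ) - d (A i ⊓ T m) with hD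
  have hAB : ∀ i ≤ b, A i ≤ B i := fun i hi =>
    hle (hAs i) (hBs i) ((hAi i).trans (hBi i hi))
  have hcut : ∀ i, ∃ x : ℤ, d (A i) < i → i < d (B i) →
      D i x = (d (B i) : ℤ) - i ∧ ∀ y, D i y ≤ (d (B i) : ℤ) - i → x ≤ y := by
    intro i
    by_cases h : d (A i) < i ∧ i < d (B i)
    swap
    · exact ⟨0, fun h1 h2 => absurd ⟨h1, h2⟩ h⟩
    obtain ⟨a, ha⟩ := hlow
    obtain ⟨z, hz⟩ := hhigh
    have hlow' : ∀ y ≤ a, D i y = (d (B i) : ℤ) - d (A i) := fun y hy => by
      have e : T y = ⊤ := top_le_iff.1 (ha.ge.trans (hT hy))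
      simp [hD, e]
    obtain ⟨x, hx, hxmin⟩ : ∃ x, D i x ≤ (d (B i) : ℤ) - i ∧
        ∀ y, D i y ≤ (d (B i) : ℤ) - i → x ≤ y :=
      Int.exists_least_of_bdd ⟨a, fun y hy => le_of_lt (lt_of_not_ge fun hle' => by
        rw [hlow' y hle'] at hy; omega)⟩ ⟨z, by simp only [hD]; rw [hz]; simp [hd] at *; omega⟩
    refine ⟨x, fun _ _ => ⟨le_antisymm hx ?_, hxmin⟩⟩
    have hprev : (d (B i) : ℤ) - i < D i (x - 1) :=
      lt_of_not_ge fun h' => by have := hxmin _ h'; omega
    have h1 : d (B i ⊓ T (x - 1)) ≤ d (B i ⊓ T x) + 1 := by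
      have e := Submodule.finrank_sup_add_finrank_inf_eq (B i ⊓ T (x - 1)) (T x)
      rw [inf_assoc, inf_eq_right.2 (hT (by omega : x - 1 ≤ x))] at e
      have : Module.finrank K ↥((B i ⊓ T (x - 1)) ⊔ T x) ≤ Module.finrank K (T (x - 1)) :=
        Submodule.finrank_mono (sup_le inf_le_right (hT (by omega)))
      have := hstep (x - 1)
      rw [sub_add_cancel] at this
      simp only [hd]
      omega
    have h2 : d (A i ⊓ T x) ≤ d (A i ⊓ T (x - 1)) :=
      Submodule.finrank_mono (inf_le_inf_left _ (hT (by omega)))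
    simp only [hD] at hprev ⊢
    omega
  choose x hx using hcut
  set S : ℕ → Submodule K (Fin b → K) := fun i => (B i ⊓ T (x i)) ⊔ A i with hS
  set Fl : ℕ → Submodule K (Fin b → K) := fun i =>
    if b ≤ i then ⊥ else F (B i) ⊔ (S i ⊓ F (A i)) with hFl
  have hFls : ∀ U ∈ s, d U < b → Fl (d U) = F U := by
    intro U hU hUb
    have eA : A (d U) = U := le_antisymm (hle (hAs _) hU (hAi _))
      (hle hU (hAs _) (hAmax _ U hU le_rfl))
    have eB : B (d U) = U := le_antisymm (hle (hBs _) hU (hBmin _ U hU le_rfl))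
      (hle hU (hBs _) (hBi _ hUb.le))
    have eS : S (d U) = U := by
      simp only [hS, eA, eB]
      exact sup_eq_right.2 inf_le_left
    simp only [hFl, if_neg (not_le.2 hUb), eB, eA, eS, (hF U hU).inf_eq_bot, sup_bot_eq]
  have hinner : ∀ i < b, d (A i) < i → i < d (B i) ∧ ∀ U ∈ s, d U ≠ i := by
    intro i hi hAlt
    have hall : ∀ U ∈ s, d U ≠ i := fun U hU e => by
      have := hAmax i U hU e.le
      omega
    exact ⟨lt_of_le_of_ne (hBi i hi.le) (hall _ (hBs i)).symm, hall⟩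
  have hdim : ∀ i ≤ b, Module.finrank K (Fl i) = b - i := by
    intro i hi
    rcases eq_or_lt_of_le hi with rfl | hib
    · simp [hFl]
    rcases eq_or_lt_of_le (hAi i) with he | hlt
    · have hfl : Fl i = F (A i) := by
        have := hFls _ (hAs i) (by omega)
        rwa [he] at this
      rw [hfl]
      have := Submodule.finrank_add_eq_of_isCompl (hF _ (hAs i))
      simp only [Module.finrank_fin_fun] at this
      simp only [hd] at he ⊢
      omega
    obtain ⟨hBlt, -⟩ := hinner i hib hlt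
    obtain ⟨hxD, -⟩ := hx i hlt hBlt
    have e1 := Submodule.finrank_sup_add_finrank_inf_eq (B i ⊓ T (x i)) (A i)
    have e1' : B i ⊓ T (x i) ⊓ A i = A i ⊓ T (x i) := by
      rw [inf_right_comm, inf_eq_right.2 (hAB i hi)]
    rw [e1'] at e1
    have hAS : A i ≤ S i := le_sup_right
    have e2 := Submodule.finrank_sup_add_finrank_inf_eq (S i ⊓ F (A i)) (A i)
    rw [show S i ⊓ F (A i) ⊔ A i = S i by
        rw [sup_comm, inf_comm, ← sup_inf_assoc_of_le _ hAS, (hF _ (hAs i)).sup_eq_top, top_inf_eq],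
      inf_assoc, (hF _ (hAs i)).symm.inf_eq_bot, inf_bot_eq, finrank_bot] at e2
    have e3 := Submodule.finrank_sup_add_finrank_inf_eq (F (B i)) (S i ⊓ F (A i))
    have e3' : F (B i) ⊓ (S i ⊓ F (A i)) = ⊥ := eq_bot_iff.2 <|
      (inf_le_inf_left _ (inf_le_left.trans (sup_le inf_le_left (hAB i hi)))).trans
        (hF _ (hBs i)).symm.inf_eq_bot.le
    rw [e3', finrank_bot] at e3
    have e4 := Submodule.finrank_add_eq_of_isCompl (hF _ (hBs i))
    simp only [Module.finrank_fin_fun] at e4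
    simp only [hD, hd] at hxD
    simp only [hd] at hAi hBlt hlt
    rw [show Fl i = F (B i) ⊔ (S i ⊓ F (A i)) from if_neg (not_le.2 hib)]
    have e5 : Module.finrank K ↥(S i) =
        Module.finrank K ↥(B i ⊓ T (x i) ⊔ A i) := rfl
    omega
  have hanti : Antitone Fl := by
    refine antitone_nat_of_succ_le fun i => ?_
    by_cases hi : b ≤ i + 1
    · simp [hFl, hi]
    have hi1 : i + 1 < b := not_le.1 hi
    simp only [hFl, if_neg hi, if_neg (show ¬ b ≤ i by omega)]
    have hup : F (B (i + 1)) ≤ F (B i) := hFanti _ (hBs i) _ (hBs _)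
      (hle (hBs i) (hBs _) (hBmin i _ (hBs _) ((Nat.le_succ i).trans (hBi _ hi1.le))))
    rcases eq_or_lt_of_le (hAi i) with he | hlt
    · -- `i` is the dimension of a member
      have eB : B i = A i := le_antisymm
        (hle (hBs i) (hAs i) (hBmin i _ (hAs i) he.ge)) (hAB i (by omega))
      rw [eB]
      refine (sup_le (hup.trans (eB ▸ le_rfl)) (inf_le_right.trans (hFanti _ (hAs i) _ (hAs _)
        (hle (hAs i) (hAs _) (hAmax _ _ (hAs i) (by omega)))))).trans le_sup_left
    obtain ⟨hBlt, hall⟩ := hinner i (by omega) hlt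
    rcases eq_or_lt_of_le (hAi (i + 1)) with he | hlt'
    · -- `i + 1` is the dimension of a member
      have e2 : B i ≤ A (i + 1) := hle (hBs i) (hAs _) (hBmin i _ (hAs _) (by omega))
      refine sup_le (hup.trans le_sup_left)
        ((inf_le_right.trans (hFanti _ (hBs i) _ (hAs _) e2)).trans le_sup_left)
    · obtain ⟨hBlt', hall'⟩ := hinner (i + 1) hi1 hlt'
      have hdA : d (A (i + 1)) < i := by
        have := hall (A (i + 1)) (hAs _)
        omega
      have eA : A (i + 1) = A i := le_antisymm (hle (hAs _) (hAs i) (hAmax i _ (hAs _) hdA.le))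
        (hle (hAs i) (hAs _) (hAmax _ _ (hAs i) (by omega)))
      have hdB : i + 1 < d (B i) := by
        have := hall' (B i) (hBs i)
        omega
      have eB : B (i + 1) = B i := le_antisymm (hle (hBs _) (hBs i) (hBmin _ _ (hBs i) hdB.le))
        (hle (hBs i) (hBs _) (hBmin i _ (hBs _) ((Nat.le_succ i).trans (hBi _ hi1.le))))
      obtain ⟨h1, -⟩ := hx (i + 1) hlt' hBlt'
      obtain ⟨-, h2⟩ := hx i hlt hBlt
      have hxx : x i ≤ x (i + 1) := h2 _ (by
        simp only [hD, eA, eB] at h1 ⊢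
        omega)
      simp only [hS, eA, eB]
      exact sup_le_sup_left (inf_le_inf_right _
        (sup_le_sup_right (inf_le_inf_left _ (hT hxx)) _)) _
  refine ⟨Fl, ⟨hanti, hdim⟩, ⟨fun W hW => ⟨(hne W hW).1, (hne W hW).2, ?_⟩, hch⟩, ?_⟩
  · have hWs : W ∈ s := Finset.mem_insert_of_mem (Finset.mem_insert_of_mem hW)
    change W ⊓ Fl (d W) = ⊥
    rw [hFls W hWs]
    · exact (hF W hWs).inf_eq_bot
    · exact lt_of_le_of_ne (hdle W) fun e => (hne W hW).2
        (Submodule.eq_top_of_finrank_eq (by simpa [hd] using e))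
  intro W hWU hW0 hW1
  set i := d W with hi
  have hi0 : 0 < i := Nat.pos_of_ne_zero fun e => hW0 (Submodule.finrank_eq_zero.1 e)
  have hib : i < b := lt_of_le_of_ne (hdle W) fun e =>
    hW1 (Submodule.eq_top_of_finrank_eq (by simpa [hd, hi] using e))
  have hcomp : ∀ U ∈ s, (d U < i → U ≤ W) ∧ (i < d U → W ≤ U) ∧ d U ≠ i := by
    intro U hU
    simp only [hs, Finset.mem_insert] at hU
    rcases hU with rfl | rfl | hU
    · exact ⟨fun _ => bot_le, fun h => by simp [hd] at h, by simp [hd]; omega⟩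
    · exact ⟨fun h => by rw [hdtop] at h; omega, fun _ => le_top, by rw [hdtop]; omega⟩
    · obtain ⟨h1, h2⟩ := hWU U hU
      refine ⟨fun h => h1.elim (fun h' => ?_) id, fun h => h1.elim id fun h' => ?_, h2⟩
      · have : d W ≤ d U := Submodule.finrank_mono h'
        omega
      · have : d U ≤ d W := Submodule.finrank_mono h'
        omega
  have hAlt : d (A i) < i := lt_of_le_of_ne (hAi i) (hcomp _ (hAs i)).2.2
  have hBlt : i < d (B i) := lt_of_le_of_ne (hBi i hib.le) (hcomp _ (hBs i)).2.2.symm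
  have hAW : A i ≤ W := (hcomp _ (hAs i)).1 hAlt
  have hWB : W ≤ B i := (hcomp _ (hBs i)).2.1 hBlt
  obtain ⟨hxD, -⟩ := hx i hAlt hBlt
  simp only [hD] at hxD
  have key : W ⊓ Fl i = ⊥ ↔ W ⊓ T (x i) ≤ A i := by
    simp only [hFl, if_neg (not_le.2 hib)]
    have hSB : S i ⊓ F (A i) ≤ B i :=
      inf_le_left.trans (sup_le inf_le_left (hAB i hib.le))
    have e : W ⊓ (F (B i) ⊔ (S i ⊓ F (A i))) = W ⊓ (S i ⊓ F (A i)) := by
      refine le_antisymm (le_inf inf_le_left ?_) (inf_le_inf_left _ le_sup_right)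
      have h' : (S i ⊓ F (A i) ⊔ F (B i)) ⊓ B i = S i ⊓ F (A i) := by
        rw [sup_inf_assoc_of_le _ hSB, (hF _ (hBs i)).symm.inf_eq_bot, sup_bot_eq]
      rw [sup_comm]
      exact (le_inf inf_le_right (inf_le_left.trans hWB)).trans h'.le
    rw [e]
    constructor
    · intro h0 y ⟨hyW, hyT⟩
      obtain ⟨a, ha, f, hf, rfl⟩ := Submodule.mem_sup.1
        ((hF _ (hAs i)).sup_eq_top ▸ (Submodule.mem_top : y ∈ (⊤ : Submodule K (Fin b → K))))
      have hfW : f ∈ W := by simpa using W.sub_mem hyW (hAW ha)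
      have hfS : f ∈ S i := by
        have h1 : a + f ∈ S i := Submodule.mem_sup_left ⟨hWB hyW, hyT⟩
        simpa using (S i).sub_mem h1 (Submodule.mem_sup_right ha)
      have : f ∈ (⊥ : Submodule K (Fin b → K)) := h0 ▸ ⟨hfW, hfS, hf⟩
      rw [(Submodule.mem_bot K).1 this, add_zero]
      exact ha
    · intro h0
      refine eq_bot_iff.2 fun f ⟨hfW, hfS, hfF⟩ => ?_
      obtain ⟨y, hy, a, ha, rfl⟩ := Submodule.mem_sup.1 hfS
      have hy' : y ∈ A i := h0 ⟨by simpa using W.sub_mem hfW (hAW ha), hy.2⟩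
      exact (hF _ (hAs i)).inf_eq_bot ▸ ⟨(A i).add_mem hy' ha, hfF⟩
  change W ⊓ Fl i = ⊥ ↔ _
  rw [key]
  constructor
  · intro h0 m
    have hWx : W ⊓ T (x i) = A i ⊓ T (x i) :=
      le_antisymm (le_inf h0 inf_le_right) (inf_le_inf_right _ hAW)
    rcases le_total (x i) m with hm | hm
    · refine ⟨A i, hAs i, ?_⟩
      have hle' : d (W ⊓ T m) ≤ d (A i ⊓ T m) := Submodule.finrank_mono
        (le_inf (le_trans (inf_le_inf_left _ (hT hm)) h0) inf_le_right)
      simp only [hd] at hle' hAlt ⊢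
      simp only [hi, hd] at hAlt
      omega
    · refine ⟨B i, hBs i, ?_⟩
      have e := Submodule.finrank_sup_add_finrank_inf_eq (W ⊓ T m) (B i ⊓ T (x i))
      have e' : W ⊓ T m ⊓ (B i ⊓ T (x i)) = W ⊓ T (x i) := by
        rw [inf_inf_inf_comm, inf_eq_left.2 hWB, inf_eq_right.2 (hT hm)]
      have e'' : Module.finrank K ↥(W ⊓ T m ⊔ B i ⊓ T (x i)) ≤ Module.finrank K ↥(B i ⊓ T m) :=
        Submodule.finrank_mono
          (sup_le (inf_le_inf_right _ hWB) (inf_le_inf_left _ (hT hm)))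
      rw [e', hWx] at e
      simp only [hd] at hxD hBlt
      simp only [hi, hd] at hxD hBlt ⊢
      omega
  · intro hgen
    obtain ⟨U, hU, hUm⟩ := hgen (x i)
    have hWA : Module.finrank K ↥(W ⊓ T (x i)) ≤ Module.finrank K ↥(A i ⊓ T (x i)) := by
      rcases lt_or_gt_of_ne (hcomp U hU).2.2 with hlt | hgt
      · have := Submodule.finrank_mono (inf_le_inf_right (T (x i))
          (hle hU (hAs i) (hAmax i U hU hlt.le)))
        omega
      · have hBU : B i ≤ U := hle (hBs i) hU (hBmin i U hU hgt.le)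
        have e := Submodule.finrank_sup_add_finrank_inf_eq (U ⊓ T (x i)) (B i)
        have e' : U ⊓ T (x i) ⊓ B i = B i ⊓ T (x i) := by
          rw [inf_right_comm, inf_eq_right.2 hBU]
        have e'' : Module.finrank K ↥(U ⊓ T (x i) ⊔ B i) ≤ Module.finrank K U :=
          Submodule.finrank_mono (sup_le inf_le_left hBU)
        rw [e'] at e
        have : Module.finrank K W = i := rfl
        simp only [hd] at hxD hgt hBlt
        omega
    have := Submodule.eq_of_le_of_finrank_le (inf_le_inf_right (T (x i)) hAW) hWA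
    rw [← this]
    exact inf_le_left

end Vale.Agent.P067.Full.Acyc
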