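import Vale.Agent.P067.Full.Acyc.Push
import Vale.Agent.P067.Full.Acyc.LinkLin
import Vale.Agent.P067.Full.QuotLink

/-!
The good vertices of a cell are the subspaces completing an opposite chain in the residue space
of one of its vertices.
-/

namespace Vale.Agent.P067.Full.Acyc

open Finset Vale.Agent.HDX

variable {p r : ℕ} [Fact p.Prime] [NeZero r]

/-- The translate of `x` between `v₀` and its shift. -/
def liftQ (v₀ x : Vx p r) : ℤ := if (v₀.1 : ℕ) ≤ (x.1 : ℕ) then 0 else 1

/-- The lifted lattice. -/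
noncomputable def lift' (v₀ x : Vx p r) : Submodule (ZMod p) (M p) := mem x (liftQ v₀ x)

/-- The offset of the lifted lattice. -/
def off (v₀ x : Vx p r) : ℤ := idx x (liftQ v₀ x) - ((v₀.1 : ℕ) : ℤ)

omit [Fact p.Prime] [NeZero r] in
lemma off_bounds (v₀ x : Vx p r) : 0 ≤ off v₀ x ∧ off v₀ x < r ∧
    (off v₀ x = 0 ↔ x.1 = v₀.1) := by
  have := x.1.2
  have := v₀.1.2
  rw [Fin.ext_iff]
  simp only [off, idx, liftQ]
  split_ifs <;> omega

omit [NeZero r] in
lemma lift_self (v₀ : Vx p r) : lift' v₀ v₀ = v₀.2 := by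
  simp [lift', liftQ, mem_zero]

omit [NeZero r] in
lemma isLat_lift {v₀ x : Vx p r} (hx : IsLat p r x.2 ((x.1 : ℕ) : ℤ)) :
    IsLat p r (lift' v₀ x) (((v₀.1 : ℕ) : ℤ) + off v₀ x) := by
  rw [off, add_sub_cancel]
  exact isLat_mem hx _

/-- In a cell through `v₀` the lifts lie between `v₀` and its shift, in the order of offsets. -/
lemma lift_bounds {σ : Finset (Vx p r)} (hσ : IsCell σ) {v₀ x : Vx p r} (h₀ : v₀ ∈ σ)
    (hx : x ∈ σ) :
    (v₀.2 ≤ lift' v₀ x ∧ lift' v₀ x ≤ v₀.2.map (shift p r)) ∧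
      ∀ y ∈ σ, off v₀ x ≤ off v₀ y → lift' v₀ x ≤ lift' v₀ y := by
  obtain ⟨h1, h2, -⟩ := off_bounds v₀ x
  have e0 : idx v₀ 0 = ((v₀.1 : ℕ) : ℤ) := idx_zero v₀
  refine ⟨⟨(mem_zero v₀).ge.trans (mem_mono hσ h₀ hx (by unfold off at h1; omega)), ?_⟩,
    fun y hy h => mem_mono hσ hx hy (by unfold off at h; omega)⟩
  rw [← mem_zero v₀, ← mem_succ]
  refine mem_mono hσ hx h₀ ?_
  unfold off at h2
  rw [show idx v₀ (0 + 1) = ((v₀.1 : ℕ) : ℤ) + r by unfold idx; ring]
  omega

omit [NeZero r] in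
/-- Lifts ordered by their offsets give compatible vertices. -/
lemma compat_of_lift {v₀ x y : Vx p r} (hxL : v₀.2 ≤ lift' v₀ x)
    (hyt : lift' v₀ y ≤ v₀.2.map (shift p r))
    (hle : off v₀ x ≤ off v₀ y → lift' v₀ x ≤ lift' v₀ y)
    (hge : off v₀ y ≤ off v₀ x → lift' v₀ y ≤ lift' v₀ x)
    (heq : off v₀ x = off v₀ y → x = y) (hxt : lift' v₀ x ≤ v₀.2.map (shift p r))
    (hyL : v₀.2 ≤ lift' v₀ y) : Compat x y := by
  constructor
  · intro he
    refine heq ?_
    simp only [off, idx, liftQ, he]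
  · intro hlt
    have hlt' := Fin.lt_def.1 hlt
    have e1 : ∀ z : Vx p r, mem z 1 = z.2.map (shift p r) := fun z => by
      rw [show (1 : ℤ) = 0 + 1 by ring, mem_succ, mem_zero]
    have hinj : ∀ {U U' : Submodule (ZMod p) (M p)}, U.map (shift p r) ≤ U'.map (shift p r) →
        U ≤ U' := fun {U U'} h => by
      rw [shift_eq_tr] at h
      exact (Submodule.map_le_map_iff_of_injective (tr p (r : ℤ)).injective _ _).1 h
    by_cases hx : (v₀.1 : ℕ) ≤ (x.1 : ℕ)
    · have hy : (v₀.1 : ℕ) ≤ (y.1 : ℕ) := by omega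
      have h := hle (by simp only [off, idx, liftQ, if_pos hx, if_pos hy]; omega)
      simp only [lift', liftQ, if_pos hx, if_pos hy, mem_zero] at h hxL hyt
      exact ⟨h, hyt.trans (Submodule.map_mono hxL)⟩
    by_cases hy : (v₀.1 : ℕ) ≤ (y.1 : ℕ)
    · have h := hge (by
        have := x.1.2
        have := y.1.2
        simp only [off, idx, liftQ, if_neg hx, if_pos hy]
        omega)
      simp only [lift', liftQ, if_neg hx, if_pos hy, mem_zero, e1] at h hxt hyL
      exact ⟨(hinj hxt).trans hyL, h⟩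
    · have h := hle (by simp only [off, idx, liftQ, if_neg hx, if_neg hy]; omega)
      simp only [lift', liftQ, if_neg hx, if_neg hy, e1] at h hxL hyt
      exact ⟨hinj h, (hinj hyt).trans hxL⟩

section Residue

variable {L : Submodule (ZMod p) (M p)} {c : ℤ}
  {ρ : L.map (shift p r) →ₗ[ZMod p] (Fin r → ZMod p)}

omit [NeZero r] in
lemma resSub_inf (hρ : ∀ x : L.map (shift p r), ρ x = 0 ↔ (x : M p) ∈ L)
    {W : Submodule (ZMod p) (M p)} (h1 : L ≤ W) (U : Submodule (ZMod p) (M p)) :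
    resSub ρ (W ⊓ U) = resSub ρ W ⊓ resSub ρ U := by
  refine le_antisymm (le_inf (resSub_mono ρ inf_le_left) (resSub_mono ρ inf_le_right)) ?_
  rintro _ ⟨⟨x, hx, rfl⟩, y, hy, hxy⟩
  refine ⟨y, ⟨?_, hy⟩, hxy⟩
  have h3 : (y : M p) - x ∈ L := (hρ (y - x)).1 (by rw [LinearMap.map_sub, hxy, sub_self])
  have := W.add_mem (h1 h3) (show (x : M p) ∈ W from hx)
  simpa using this

omit [NeZero r] in
/-- The height of a lattice over `L` is that of `L` plus its height in the residue space. -/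
lemma hHi_add (hρ : ∀ x : L.map (shift p r), ρ x = 0 ↔ (x : M p) ∈ L) (hL : IsLat p r L c)
    {W : Submodule (ZMod p) (M p)} (h1 : L ≤ W) (h2 : W ≤ L.map (shift p r)) (m : ℤ) :
    hHi p W m = hHi p L m + Module.finrank (ZMod p) ↥(resSub ρ W ⊓ resSub ρ (hi p m)) := by
  obtain ⟨-, z, -, -, hz⟩ := hL.map_shift.bounds
  have hWz : W ⊓ hi p m ≤ lo p z := inf_le_left.trans (h2.trans hz)
  have hLz : L ⊓ hi p m ≤ lo p z := inf_le_left.trans (hL.stable.trans hz)
  have hle : L ⊓ hi p m ≤ W ⊓ hi p m := inf_le_inf_right _ h1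
  rw [← resSub_inf hρ h1, hHi, hHi, rk_eq_window hWz, rk_eq_window hLz]
  have e : Module.finrank (ZMod p) (resSub ρ (W ⊓ hi p m)) = Module.finrank (ZMod p)
      (((W ⊓ hi p m).map (win p m z)).map ((L ⊓ hi p m).map (win p m z)).mkQ) := by
    have e1 : Module.finrank (ZMod p) (resSub ρ (W ⊓ hi p m)) = Module.finrank (ZMod p)
        ((W ⊓ hi p m).map L.mkQ) := by
      rw [resSub, finrank_map_congr _ ρ (L.mkQ.comp (L.map (shift p r)).subtype) fun x _ => by
          rw [hρ]; simp [Submodule.Quotient.mk_eq_zero],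
        Submodule.map_comp, Submodule.map_comap_eq_self (by
          rw [Submodule.range_subtype]; exact inf_le_left.trans h2)]
    rw [e1, ← Submodule.map_comp]
    refine finrank_map_congr _ _ _ fun x hx => ?_
    simp only [LinearMap.comp_apply, Submodule.mkQ_apply, Submodule.Quotient.mk_eq_zero]
    refine ⟨fun hxL => Submodule.mem_map_of_mem ⟨hxL, hx.2⟩, fun ⟨y, hy, hxy⟩ => ?_⟩
    have hlo : x - y ∈ lo p m := (win_ker_eq (Submodule.sub_mem _ (hWz hx) (hLz hy))).1
      (by rw [map_sub, hxy, sub_self])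
    have h0 : x - y ∈ lo p m ⊓ hi p m := ⟨hlo, (hi p m).sub_mem hx.2 hy.2⟩
    rw [lo_inf_hi, Submodule.mem_bot, sub_eq_zero] at h0
    exact h0 ▸ hy.1
  have h3 := finrank_map_add_ker ((W ⊓ hi p m).map (win p m z))
    ((L ⊓ hi p m).map (win p m z)).mkQ (by rw [Submodule.ker_mkQ]; exact Submodule.map_mono hle)
  rw [Submodule.ker_mkQ] at h3
  omega

omit [NeZero r] in
lemma resSub_hi_top (hρs : Function.Surjective ρ)
    (hρ : ∀ x : L.map (shift p r), ρ x = 0 ↔ (x : M p) ∈ L) (hL : IsLat p r L c) :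
    ∃ a, resSub ρ (hi p a) = ⊤ := by
  obtain ⟨a, -, -, ha, -⟩ := hL.bounds
  refine ⟨a, eq_top_iff.2 fun v _ => ?_⟩
  obtain ⟨x, rfl⟩ := hρs v
  obtain ⟨l, hl, g, hg, hlg⟩ := Submodule.mem_sup.1
    ((lo_sup_hi (p := p) a).symm ▸ (Submodule.mem_top : (x : M p) ∈ (⊤ : Submodule (ZMod p) (M p))))
  have hlt : l ∈ L.map (shift p r) := hL.stable (ha hl)
  refine ⟨x - ⟨l, hlt⟩, ?_, ?_⟩
  · show (x : M p) - l ∈ hi p a
    rw [← hlg]
    simpa using hg
  · rw [LinearMap.map_sub, (hρ ⟨l, hlt⟩).2 (ha hl), sub_zero]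

omit [NeZero r] in
lemma resSub_hi_bot (hL : IsLat p r L c) : ∃ a, resSub ρ (hi p a) = ⊥ := by
  obtain ⟨-, z, -, -, hz⟩ := hL.map_shift.bounds
  refine ⟨z, eq_bot_iff.2 ?_⟩
  rintro _ ⟨x, hx, rfl⟩
  have : (x : M p) ∈ lo p z ⊓ hi p z := ⟨hz x.2, hx⟩
  rw [lo_inf_hi, Submodule.mem_bot] at this
  rw [(Subtype.ext this : x = 0), map_zero]
  exact zero_mem _

omit [NeZero r] in
lemma resSub_hi_step (m : ℤ) :
    Module.finrank (ZMod p) (resSub ρ (hi p m)) ≤
      Module.finrank (ZMod p) (resSub ρ (hi p (m + 1))) + 1 := by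
  obtain ⟨y, hy⟩ : ∃ y, resSub ρ (hi p m) ≤
      resSub ρ (hi p (m + 1)) ⊔ Submodule.span (ZMod p) {y} := by
    by_cases h : ∀ x : L.map (shift p r), (x : M p) ∈ hi p m → (x : M p) m = 0
    · refine ⟨0, ?_⟩
      rintro _ ⟨x, hx, rfl⟩
      refine Submodule.mem_sup_left (Submodule.mem_map_of_mem
        (show (x : M p) ∈ hi p (m + 1) from mem_hi.2 fun k hk => ?_))
      rcases eq_or_lt_of_le (show k ≤ m by omega) with rfl | hk'
      · exact h x hx
      · exact mem_hi.1 hx k hk'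
    · push Not at h
      obtain ⟨w, hw, hwm⟩ := h
      refine ⟨ρ w, ?_⟩
      rintro _ ⟨x, hx, rfl⟩
      have hd : ρ x = ρ (x - ((x : M p) m / (w : M p) m) • w) + ((x : M p) m / (w : M p) m) • ρ w := by
        rw [LinearMap.map_sub, LinearMap.map_smul]
        abel
      rw [hd]
      refine Submodule.add_mem_sup (Submodule.mem_map_of_mem ?_)
        (Submodule.mem_span_singleton.2 ⟨_, rfl⟩)
      show (x : M p) - ((x : M p) m / (w : M p) m) • (w : M p) ∈ hi p (m + 1)
      refine mem_hi.2 fun k hk => ?_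
      rw [Finsupp.sub_apply, Finsupp.smul_apply, smul_eq_mul]
      rcases eq_or_lt_of_le (show k ≤ m by omega) with rfl | hk'
      · rw [div_mul_cancel₀ _ hwm, sub_self]
      · rw [mem_hi.1 (show (x : M p) ∈ hi p m from hx) k hk', mem_hi.1 hw k hk', mul_zero,
          sub_zero]
  refine (Submodule.finrank_mono hy).trans
    ((Submodule.finrank_add_le_finrank_add_finrank _ _).trans (Nat.add_le_add_left ?_ _))
  exact (finrank_span_le_card _).trans (by simp)

end Residue

open Classical in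
/-- The link of a nonempty cell. -/
theorem exists_link (H : IsHeight p r (hHi p)) {b : Finset (Vx p r)} (hb : IsCell b)
    (hne : b.Nonempty) : HasLink (p := p) (r := r) b := by
  obtain ⟨v₀, h₀⟩ := hne
  set c : ℤ := ((v₀.1 : ℕ) : ℤ) with hc
  have hL : IsLat p r v₀.2 c := hb.1 v₀ h₀
  obtain ⟨ρ, hρs, hρ⟩ := hL.exists_residue
  set T : ℤ → Submodule (ZMod p) (Fin r → ZMod p) := fun m => resSub ρ (hi p m) with hT
  set φ : Vx p r → Submodule (ZMod p) (Fin r → ZMod p) := fun x => resSub ρ (lift' v₀ x) with hφ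
  set ψ : Submodule (ZMod p) (Fin r → ZMod p) → Vx p r := fun W =>
    (coord r (c + Module.finrank (ZMod p) W), (liftSub ρ W).map
      (tr p (-((r : ℤ) * ((c + Module.finrank (ZMod p) W) / (r : ℤ))))).toLinearMap) with hψ
  have hr : (0 : ℤ) < r := r_pos
  have hLt : v₀.2 ≤ v₀.2.map (shift p r) := hL.stable
  -- facts about vertices in a cell through `v₀`
  have hrank : ∀ σ, IsCell σ → v₀ ∈ σ → ∀ x ∈ σ,
      (Module.finrank (ZMod p) (φ x) : ℤ) = off v₀ x := by
    intro σ hσ h0 x hx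
    obtain ⟨⟨h1, h2⟩, -⟩ := lift_bounds hσ h0 hx
    have := finrank_resSub hρ hL (isLat_lift (v₀ := v₀) (hσ.1 x hx)) h1 h2
    change (Module.finrank (ZMod p) ↥(resSub ρ (lift' v₀ x)) : ℤ) = off v₀ x
    omega
  have hψφ : ∀ σ, IsCell σ → v₀ ∈ σ → ∀ x ∈ σ, ψ (φ x) = x := by
    intro σ hσ h0 x hx
    obtain ⟨⟨h1, h2⟩, -⟩ := lift_bounds hσ h0 hx
    have hn : c + Module.finrank (ZMod p) (φ x) =
        ((x.1 : ℕ) : ℤ) + (r : ℤ) * liftQ v₀ x := by
      rw [hrank σ hσ h0 x hx]
      simp only [off, idx, hc]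
      ring
    have hlift : liftSub ρ (φ x) = lift' v₀ x :=
      resSub_inj hρ (le_liftSub hρ hLt _) (liftSub_le ρ _) h1 h2 (resSub_liftSub hρs _)
    simp only [hψ]
    rw [hn, hlift, coord_add, coord_fin, Int.add_mul_ediv_left _ _ hr.ne',
      Int.ediv_eq_zero_of_lt (by omega) (by omega), zero_add, lift', mem, map_tr_tr,
      neg_add_cancel, map_tr_zero]
  have hβN : ∀ U ∈ (b.erase v₀).image φ, U ≠ ⊥ ∧ U ≠ ⊤ := by
    intro U hU
    obtain ⟨x, hx, rfl⟩ := Finset.mem_image.1 hU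
    obtain ⟨hxne, hxb⟩ := Finset.mem_erase.1 hx
    have h := hrank b hb h₀ x hxb
    obtain ⟨h1, h2, h3⟩ := off_bounds v₀ x
    refine ⟨fun e => ?_, fun e => ?_⟩
    · rw [e, finrank_bot] at h
      exact hxne ((hb.2 x hxb v₀ h₀).1 (h3.1 (by omega)))
    · rw [e, finrank_top, Module.finrank_fin_fun] at h
      omega
  have hcmp : ∀ σ, IsCell σ → v₀ ∈ σ → ∀ x ∈ σ, ∀ y ∈ σ, φ x ≤ φ y ∨ φ y ≤ φ x := by
    intro σ hσ h0 x hx y hy
    rcases le_total (off v₀ x) (off v₀ y) with h | h
    · exact Or.inl (resSub_mono ρ ((lift_bounds hσ h0 hx).2 y hy h))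
    · exact Or.inr (resSub_mono ρ ((lift_bounds hσ h0 hy).2 x hx h))
  set β := (b.erase v₀).image φ with hβ
  have hβch : ∀ U ∈ β, ∀ U' ∈ β, U ≤ U' ∨ U' ≤ U := by
    intro U hU U' hU'
    obtain ⟨x, hx, rfl⟩ := Finset.mem_image.1 hU
    obtain ⟨y, hy, rfl⟩ := Finset.mem_image.1 hU'
    exact hcmp b hb h₀ x (Finset.mem_of_mem_erase hx) y (Finset.mem_of_mem_erase hy)
  obtain ⟨Fl, hFl, hβopp, hflag⟩ := exists_flag T
    (fun i j hij => resSub_mono ρ (hi_anti hij)) (resSub_hi_top hρs hρ hL) (resSub_hi_bot hL)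
    (fun m => resSub_hi_step m) β hβN hβch
  -- the members of `b` between `v₀` and its shift
  have hheight : ∀ σ, IsCell σ → v₀ ∈ σ → ∀ x ∈ σ, ∀ m, (hHi p (lift' v₀ x) m : ℤ) =
      hHi p v₀.2 m + Module.finrank (ZMod p) ↥(φ x ⊓ T m) := by
    intro σ hσ h0 x hx m
    obtain ⟨⟨h1, h2⟩, -⟩ := lift_bounds hσ h0 hx
    rw [hHi_add hρ hL h1 h2 m]
    push_cast
    rfl
  have htop : ∀ m, (hHi p (v₀.2.map (shift p r)) m : ℤ) =
      hHi p v₀.2 m + Module.finrank (ZMod p) (T m) := by
    intro m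
    have e : resSub ρ (v₀.2.map (shift p r)) = ⊤ := by
      rw [resSub, Submodule.comap_subtype_self, Submodule.map_top, LinearMap.range_eq_top.2 hρs]
    rw [hHi_add hρ hL hLt le_rfl m, e, top_inf_eq]
    push_cast
    rfl
  -- good is generic
  have hgen : ∀ x, x ∉ b → IsLat p r x.2 ((x.1 : ℕ) : ℤ) →
      (∀ v ∈ b, Compat x v ∧ Compat v x) →
      (Good (hHi p) b x ↔ Generic T (insert ⊥ (insert ⊤ β)) (φ x)) := by
    intro x hxb hxl hxc
    have hcell : IsCell (insert x b) := isCell_insert hb hxl hxc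
    have h0' : v₀ ∈ insert x b := Finset.mem_insert_of_mem h₀
    have hx' : x ∈ insert x b := Finset.mem_insert_self _ _
    have hd := hrank _ hcell h0' x hx'
    have hCh := hheight _ hcell h0' x hx'
    have hCl := isLat_lift (v₀ := v₀) hxl
    constructor
    · intro hgood m
      by_cases htriv : (hHi p (lift' v₀ x) m : ℤ) ≤ max 0 (c + off v₀ x - m)
      · by_cases hz : (hHi p (lift' v₀ x) m : ℤ) ≤ hHi p v₀.2 m
        · refine ⟨⊥, Finset.mem_insert_self _ _, ?_⟩
          rw [bot_inf_eq]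
          simp only [finrank_bot]
          have := hCh m
          omega
        · refine ⟨⊤, Finset.mem_insert_of_mem (Finset.mem_insert_self _ _), ?_⟩
          rw [top_inf_eq]
          simp only [finrank_top, Module.finrank_fin_fun]
          have h1 := H.ge hL.map_shift m
          have h2 := htop m
          have h3 := hCh m
          obtain ⟨-, h4, -⟩ := off_bounds v₀ x
          omega
      · obtain ⟨v, hv, hcv⟩ := hgood.2.2.2 (c + off v₀ x) m (hHi p (lift' v₀ x) m)
          (cov_of_member H x (liftQ v₀ x) (by omega) (by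
            have e : idx x (liftQ v₀ x) = c + off v₀ x := by unfold off; omega
            rw [e, sub_self, max_self, add_zero, lift']))
        obtain ⟨-, k, hk⟩ := exists_member H hcv
        rcases le_or_gt (idx v k) c with hlow | hlow
        · refine ⟨⊥, Finset.mem_insert_self _ _, ?_⟩
          have := H.mono (isLat_mem (hb.1 v hv) k) hL
            ((mem_mono hb hv h₀ (by rw [idx_zero]; omega)).trans (mem_zero v₀).le) m
          rw [bot_inf_eq]
          simp only [finrank_bot]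
          have := hCh m
          omega
        rcases le_or_gt (c + r) (idx v k) with hhigh | hhigh
        · refine ⟨⊤, Finset.mem_insert_of_mem (Finset.mem_insert_self _ _), ?_⟩
          have hle : v₀.2.map (shift p r) ≤ mem v k := by
            rw [← mem_zero v₀, ← mem_succ]
            exact mem_mono hb h₀ hv (by
              rw [show idx v₀ (0 + 1) = c + r by rw [hc]; unfold idx; ring]; omega)
          have := H.step hL.map_shift (isLat_mem (hb.1 v hv) k) hle m
          rw [top_inf_eq]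
          simp only [finrank_top, Module.finrank_fin_fun]
          have := htop m
          have := hCh m
          obtain ⟨-, h4, -⟩ := off_bounds v₀ x
          omega
        · have hk' : k = liftQ v₀ v := by
            have hv2 := v.1.2
            have hc2 := v₀.1.2
            unfold idx at hlow hhigh
            rcases le_or_gt k (-1) with hk1 | hk1
            · have : (r : ℤ) * k ≤ r * (-1) := mul_le_mul_of_nonneg_left hk1 hr.le
              omega
            rcases le_or_gt 2 k with hk2 | hk2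
            · have : (r : ℤ) * 2 ≤ r * k := mul_le_mul_of_nonneg_left hk2 hr.le
              omega
            obtain rfl | rfl : k = 0 ∨ k = 1 := by omega
            · unfold liftQ; rw [if_pos (by omega)]
            · unfold liftQ; rw [if_neg (by omega)]
          subst hk'
          have hne' : v ≠ v₀ := by
            rintro rfl
            simp [liftQ, idx_zero, hc] at hlow
          refine ⟨φ v, Finset.mem_insert_of_mem (Finset.mem_insert_of_mem
            (Finset.mem_image_of_mem φ (Finset.mem_erase.2 ⟨hne', hv⟩))), ?_⟩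
          have h1 := hheight b hb h₀ v hv m
          have h2 := hrank b hb h₀ v hv
          have h3 := hCh m
          have e : idx v (liftQ v₀ v) = c + off v₀ v := by unfold off; omega
          rw [e, ← lift'] at hk
          omega
    · intro hg
      refine ⟨hxb, hxl, hxc, fun n' m' u hcov => ?_⟩
      obtain ⟨hu, j, hj⟩ := exists_member H hcov
      -- move the lift to the member `j`
      set k := j - liftQ v₀ x with hk
      have hmem : (hHi p (mem x j) m' : ℤ) = hHi p (lift' v₀ x) (m' - r * k) := by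
        have := H.map_tr (lift' v₀ x) ((r : ℤ) * k) (m' - r * k)
        rw [sub_add_cancel, lift', mem, map_tr_tr, ← mul_add, hk, sub_add_cancel] at this
        rw [mem, this]
        rfl
      have hidx : idx x j = c + off v₀ x + r * k := by
        simp only [off, idx, hk, hc]
        ring
      rw [hmem, hidx] at hj
      obtain ⟨U, hU, hUm⟩ := hg (m' - r * k)
      have h3 := hCh (m' - r * k)
      have htrans : ∀ (v : Vx p r) (q : ℤ),
          hHi p (mem v (q + k)) m' = hHi p (mem v q) (m' - r * k) := by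
        intro v q
        have := H.map_tr (mem v q) ((r : ℤ) * k) (m' - r * k)
        rw [sub_add_cancel, mem, map_tr_tr, ← mul_add, add_comm k] at this
        exact this
      simp only [Finset.mem_insert] at hU
      rcases hU with rfl | rfl | hU
      · refine ⟨v₀, h₀, cov_of_member H v₀ (0 + k) hu ?_⟩
        rw [htrans v₀ 0, mem_zero]
        rw [bot_inf_eq] at hUm
        simp only [finrank_bot] at hUm
        obtain ⟨h4, -, -⟩ := off_bounds v₀ x
        simp only [idx, zero_add, ← hc]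
        omega
      · refine ⟨v₀, h₀, cov_of_member H v₀ ((0 + 1) + k) hu ?_⟩
        rw [htrans v₀ (0 + 1), mem_succ, mem_zero]
        rw [top_inf_eq] at hUm
        simp only [finrank_top, Module.finrank_fin_fun] at hUm
        have h5 := htop (m' - r * k)
        obtain ⟨-, h4, -⟩ := off_bounds v₀ x
        simp only [idx, zero_add, ← hc, mul_add, mul_one]
        omega
      · obtain ⟨v, hv, rfl⟩ := Finset.mem_image.1 hU
        have hvb := Finset.mem_of_mem_erase hv
        refine ⟨v, hvb, cov_of_member H v (liftQ v₀ v + k) hu ?_⟩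
        rw [htrans v _, ← lift']
        have h5 := hheight b hb h₀ v hvb (m' - r * k)
        have h6 := hrank b hb h₀ v hvb
        rw [show idx v (liftQ v₀ v + k) = c + off v₀ v + r * k by
          simp only [off, idx, hc]; ring]
        omega
  have hβcard : β.card + 1 = b.card := by
    rw [hβ, Finset.card_image_of_injOn, Finset.card_erase_add_one h₀]
    intro x hx y hy h
    rw [← hψφ b hb h₀ x (Finset.mem_of_mem_erase hx), h,
      hψφ b hb h₀ y (Finset.mem_of_mem_erase hy)]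
  -- comparable with the chain, of another dimension
  have hadm : ∀ x, Good (hHi p) b x → φ x ∉ β ∧ ψ (φ x) = x ∧ φ x ≠ ⊥ ∧ φ x ≠ ⊤ ∧
      φ x ⊓ Fl (Module.finrank (ZMod p) (φ x)) = ⊥ := by
    intro x hx
    obtain ⟨hxb, hxl, hxc, -⟩ := id hx
    have hcell : IsCell (insert x b) := isCell_insert hb hxl hxc
    have h0' : v₀ ∈ insert x b := Finset.mem_insert_of_mem h₀
    have hx' : x ∈ insert x b := Finset.mem_insert_self _ _
    have hxx := hψφ _ hcell h0' x hx'
    have hd := hrank _ hcell h0' x hx'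
    obtain ⟨h1, h2, h3⟩ := off_bounds v₀ x
    have hne0 : φ x ≠ ⊥ := fun e => by
      rw [e, finrank_bot] at hd
      exact hxb ((hcell.2 x hx' v₀ h0').1 (h3.1 (by omega)) ▸ h₀)
    have hne1 : φ x ≠ ⊤ := fun e => by
      rw [e, finrank_top, Module.finrank_fin_fun] at hd
      omega
    have hnot : ∀ v ∈ b, φ v ≠ φ x := fun v hv e => hxb (by
      rw [← hxx, ← e, hψφ b hb h₀ v hv]; exact hv)
    refine ⟨fun hm => ?_, hxx, hne0, hne1, (hflag (φ x) (fun U hU => ?_) hne0 hne1).2
      ((hgen x hxb hxl hxc).1 hx)⟩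
    · obtain ⟨v, hv, e⟩ := Finset.mem_image.1 hm
      exact hnot v (Finset.mem_of_mem_erase hv) e
    · obtain ⟨v, hv, rfl⟩ := Finset.mem_image.1 hU
      have hv' := Finset.mem_of_mem_erase hv
      refine ⟨hcmp _ hcell h0' x hx' v (Finset.mem_insert_of_mem hv'), fun e => hnot v hv' ?_⟩
      rcases hcmp _ hcell h0' x hx' v (Finset.mem_insert_of_mem hv') with h | h
      · exact (Submodule.eq_of_le_of_finrank_le h e.le).symm
      · exact Submodule.eq_of_le_of_finrank_le h e.ge
  refine ⟨Fl, β, φ, ψ, hFl, hβopp, hβcard, fun x hx => ⟨(hadm x hx).1, (hadm x hx).2.1⟩,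
    fun τ hτ hcell => ⟨fun W hW => ?_, fun W hW W' hW' => ?_⟩, fun σ hσ hdis => ?_⟩
  · rcases Finset.mem_union.1 hW with h | h
    · exact hβopp.1 W h
    · obtain ⟨x, hx, rfl⟩ := Finset.mem_image.1 h
      obtain ⟨-, -, h1, h2, h3⟩ := hadm x (hτ x hx)
      exact ⟨h1, h2, h3⟩
  · have hget : ∀ U ∈ β ∪ τ.image φ, ∃ x ∈ b ∪ τ, φ x = U := by
      intro U hU
      rcases Finset.mem_union.1 hU with h | h
      · obtain ⟨x, hx, rfl⟩ := Finset.mem_image.1 h
        exact ⟨x, Finset.mem_union_left _ (Finset.mem_of_mem_erase hx), rfl⟩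
      · obtain ⟨x, hx, rfl⟩ := Finset.mem_image.1 h
        exact ⟨x, Finset.mem_union_right _ hx, rfl⟩
    obtain ⟨x, hx, rfl⟩ := hget W hW
    obtain ⟨y, hy, rfl⟩ := hget W' hW'
    exact hcmp _ hcell (Finset.mem_union_left _ h₀) x hx y hy
  -- lifting an opposite chain
  have hψW : ∀ W ∈ σ, IsLat p r (ψ W).2 (((ψ W).1 : ℕ) : ℤ) ∧
      lift' v₀ (ψ W) = liftSub ρ W ∧ off v₀ (ψ W) = Module.finrank (ZMod p) W ∧ φ (ψ W) = W := by
    intro W hW
    obtain ⟨hW0, hW1, -⟩ := hσ.1 W (Finset.mem_union_right _ hW)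
    set d := Module.finrank (ZMod p) W with hd
    have hd0 : 0 < d := Nat.pos_of_ne_zero fun e => hW0 (Submodule.finrank_eq_zero.1 e)
    have hdr : d < r := by simpa [hd] using Submodule.finrank_lt hW1
    have hn0 : 0 ≤ c + d := by omega
    have hcr := v₀.1.2
    have hmod : (c + d) % (r : ℤ) = if c + d < r then c + d else c + d - r := by
      split_ifs with h
      · exact Int.emod_eq_of_lt hn0 h
      · rw [← Int.emod_eq_of_lt (a := c + d - r) (b := r) (by omega) (by omega), Int.sub_emod_right]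
    have hdiv : (c + d) / (r : ℤ) = if c + d < r then 0 else 1 := by
      have e := Int.emod_add_mul_ediv (c + d) r
      rw [hmod] at e
      split_ifs at e ⊢ with h
      · exact (mul_eq_zero.1 (by omega : (r : ℤ) * ((c + d) / r) = 0)).resolve_left hr.ne'
      · exact mul_left_cancel₀ hr.ne' (by omega : (r : ℤ) * ((c + d) / r) = r * 1)
    have hQ : liftQ v₀ (ψ W) = (c + d) / (r : ℤ) := by
      have e : (((ψ W).1 : ℕ) : ℤ) = (c + d) % (r : ℤ) := coord_val _
      rw [hmod] at e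
      rw [hdiv]
      simp only [liftQ]
      split_ifs at e ⊢ <;> omega
    have hlift : lift' v₀ (ψ W) = liftSub ρ W := by
      rw [lift', hQ]
      simp only [hψ, mem, ← hd]
      rw [map_tr_tr, add_neg_cancel, map_tr_zero]
    refine ⟨?_, hlift, ?_, ?_⟩
    · have h := (isLat_liftSub hρ hL hρs W).map_tr (-((r : ℤ) * ((c + d) / r)))
      have e : c + (Module.finrank (ZMod p) W : ℤ) + -((r : ℤ) * ((c + d) / r)) =
          (((ψ W).1 : ℕ) : ℤ) := by
        rw [show (((ψ W).1 : ℕ) : ℤ) = (c + d) % (r : ℤ) from coord_val _, Int.emod_def, ← hd]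
        ring
      rw [e] at h
      exact h
    · simp only [off, idx, hQ]
      rw [show (((ψ W).1 : ℕ) : ℤ) = (c + d) % (r : ℤ) from coord_val _, Int.emod_add_mul_ediv,
        ← hc]
      omega
    · simp only [hφ]
      rw [hlift, resSub_liftSub hρs]
  have hget : ∀ x ∈ b ∪ σ.image ψ, (v₀.2 ≤ lift' v₀ x ∧ lift' v₀ x ≤ v₀.2.map (shift p r)) ∧
      IsLat p r x.2 ((x.1 : ℕ) : ℤ) ∧ (x = v₀ ∨ φ x ∈ β ∪ σ) ∧
      (off v₀ x = Module.finrank (ZMod p) (φ x)) ∧ ψ (φ x) = x := by
    intro x hx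
    rcases Finset.mem_union.1 hx with h | h
    · refine ⟨(lift_bounds hb h₀ h).1, hb.1 x h, ?_, (hrank b hb h₀ x h).symm, hψφ b hb h₀ x h⟩
      rcases eq_or_ne x v₀ with e | e
      · exact Or.inl e
      · exact Or.inr (Finset.mem_union_left _ (Finset.mem_image_of_mem φ
          (Finset.mem_erase.2 ⟨e, h⟩)))
    · obtain ⟨W, hW, rfl⟩ := Finset.mem_image.1 h
      obtain ⟨h1, h2, h3, h4⟩ := hψW W hW
      rw [h2, h4]
      exact ⟨⟨le_liftSub hρ hLt W, liftSub_le ρ W⟩, h1, Or.inr (Finset.mem_union_right _ hW),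
        h3, rfl⟩
  have hcell : IsCell (b ∪ σ.image ψ) := by
    refine ⟨fun x hx => (hget x hx).2.1, fun x hx y hy => ?_⟩
    obtain ⟨⟨hx1, hx2⟩, -, hxc, hxo, hxψ⟩ := hget x hx
    obtain ⟨⟨hy1, hy2⟩, -, hyc, hyo, hyψ⟩ := hget y hy
    have hφ0 : φ v₀ = ⊥ := Submodule.finrank_eq_zero.1 (by
      have := hrank b hb h₀ v₀ h₀
      have := (off_bounds v₀ v₀).2.2.2 rfl
      omega)
    have hcomp' : φ x ≤ φ y ∨ φ y ≤ φ x := by
      rcases hxc with rfl | hxc
      · exact Or.inl (hφ0 ▸ bot_le)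
      rcases hyc with rfl | hyc
      · exact Or.inr (hφ0 ▸ bot_le)
      exact hσ.2 _ hxc _ hyc
    have hmon : ∀ u w, v₀.2 ≤ lift' v₀ w → lift' v₀ u ≤ v₀.2.map (shift p r) → φ u ≤ φ w →
        lift' v₀ u ≤ lift' v₀ w := fun u w h1 h2 h => le_of_resSub_le hρ h2 h1 h
    have hord : ∀ {u w}, (φ u ≤ φ w ∨ φ w ≤ φ u) →
        off v₀ u = Module.finrank (ZMod p) (φ u) → off v₀ w = Module.finrank (ZMod p) (φ w) →
        off v₀ u ≤ off v₀ w → φ u ≤ φ w := fun {u w} h hu hw hle => h.elim id fun h' =>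
      (Submodule.eq_of_le_of_finrank_le h' (by omega)).ge
    exact compat_of_lift hx1 hy2 (fun h => hmon x y hy1 hx2 (hord hcomp' hxo hyo h))
      (fun h => hmon y x hx1 hy2 (hord hcomp'.symm hyo hxo h))
      (fun h => by
        rw [← hxψ, ← hyψ, le_antisymm (hord hcomp' hxo hyo h.le)
          (hord hcomp'.symm hyo hxo h.ge)])
      hx2 hy1
  refine ⟨hcell, fun W hW => ?_⟩
  obtain ⟨h1, h2, h3, h4⟩ := hψW W hW
  refine ⟨?_, h4⟩
  have hWb : ψ W ∉ b := fun hmem => by
    rcases eq_or_ne (ψ W) v₀ with e | e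
    · have := (off_bounds v₀ (ψ W)).2.2.2 (by rw [e])
      rw [h3, Nat.cast_eq_zero] at this
      exact (hσ.1 W (Finset.mem_union_right _ hW)).1 (Submodule.finrank_eq_zero.1 this)
    · exact Finset.disjoint_left.1 hdis hW (h4 ▸ Finset.mem_image_of_mem φ
        (Finset.mem_erase.2 ⟨e, hmem⟩))
  have hxc : ∀ v ∈ b, Compat (ψ W) v ∧ Compat v (ψ W) := fun v hv =>
    ⟨hcell.2 _ (Finset.mem_union_right _ (Finset.mem_image_of_mem ψ hW)) v
      (Finset.mem_union_left _ hv),
    hcell.2 v (Finset.mem_union_left _ hv) _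
      (Finset.mem_union_right _ (Finset.mem_image_of_mem ψ hW))⟩
  refine (hgen _ hWb h1 hxc).2 ?_
  rw [h4]
  obtain ⟨hW0, hW1, hWF⟩ := hσ.1 W (Finset.mem_union_right _ hW)
  refine (hflag W (fun U hU => ⟨hσ.2 W (Finset.mem_union_right _ hW) U
    (Finset.mem_union_left _ hU), fun e => ?_⟩) hW0 hW1).1 hWF
  have hUW : U = W := (hσ.2 U (Finset.mem_union_left _ hU) W (Finset.mem_union_right _ hW)).elim
    (fun h => Submodule.eq_of_le_of_finrank_le h e.ge)
    fun h => (Submodule.eq_of_le_of_finrank_le h e.le).symm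
  exact Finset.disjoint_left.1 hdis hW (hUW ▸ hU)

end Vale.Agent.P067.Full.Acyc
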